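import Mathlib.Analysis.Normed.Module.Basic
import Mathlib.Algebra.BigOperators.Pi
import Mathlib.Algebra.BigOperators.Ring.Finset
import Mathlib.Logic.Equiv.Prod

/-! Averages over finite types with values in real vector spaces. -/

namespace Vale.Agent.P111

open scoped BigOperators
open Finset

/-- The average of `f` over a finite type. -/
noncomputable def avg {β Y : Type*} [Fintype β] [AddCommGroup Y] [Module ℝ Y] (f : β → Y) : Y :=
  (Fintype.card β : ℝ)⁻¹ • ∑ c, f c

section
variable {β γ Y : Type*} [Fintype β] [Fintype γ] [AddCommGroup Y] [Module ℝ Y]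

lemma avg_congr {f g : β → Y} (h : ∀ c, f c = g c) : avg f = avg g := by
  rw [show f = g from funext h]

lemma avg_add (f g : β → Y) : avg (fun c => f c + g c) = avg f + avg g := by
  simp [avg, sum_add_distrib]

lemma avg_sub (f g : β → Y) : avg (fun c => f c - g c) = avg f - avg g := by
  simp [avg, sum_sub_distrib, smul_sub]

lemma avg_neg (f : β → Y) : avg (fun c => -f c) = -avg f := by simp [avg]

lemma avg_smul (r : ℝ) (f : β → Y) : avg (fun c => r • f c) = r • avg f := by
  simp [avg, ← smul_sum, smul_comm r]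

lemma avg_const [Nonempty β] (y : Y) : avg (fun _ : β => y) = y := by
  have h : (Fintype.card β : ℝ) ≠ 0 := by exact_mod_cast Fintype.card_ne_zero
  simp [avg, ← Nat.cast_smul_eq_nsmul ℝ, h]

lemma avg_sum {ι : Type*} (s : Finset ι) (f : ι → β → Y) :
    avg (fun c => ∑ i ∈ s, f i c) = ∑ i ∈ s, avg (f i) := by
  simp only [avg]
  rw [sum_comm, smul_sum]

lemma avg_comm (f : β → γ → Y) : avg (fun c => avg (f c)) = avg (fun d => avg fun c => f c d) := by
  simp only [avg, smul_sum]
  rw [sum_comm]
  simp only [smul_comm (Fintype.card β : ℝ)⁻¹]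

lemma avg_equiv (e : β ≃ γ) (f : γ → Y) : avg (fun c => f (e c)) = avg f := by
  simp [avg, Fintype.card_congr e, e.sum_comp]

lemma avg_prod (f : β × γ → Y) : avg f = avg fun c => avg fun d => f (c, d) := by
  simp [avg, Fintype.sum_prod_type, smul_sum, smul_smul, mul_comm]

lemma map_avg {Z F : Type*} [AddCommGroup Z] [Module ℝ Z] [FunLike F Y Z] [LinearMapClass F ℝ Y Z]
    (g : F) (f : β → Y) : g (avg f) = avg fun c => g (f c) := by
  simp [avg, map_smul, map_sum]

lemma avg_pi_apply {ι : Type*} [Fintype ι] [DecidableEq ι] [Nonempty β] (j : ι) (f : β → Y) :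
    avg (fun b : ι → β => f (b j)) = avg f := by
  rw [← avg_equiv (Equiv.funSplitAt j β).symm (fun b : ι → β => f (b j)), avg_prod]
  refine avg_congr fun c => ?_
  simp [Equiv.funSplitAt, Equiv.piSplitAt, avg_const]

end

section
variable {β : Type*} [Fintype β]

lemma avg_mul_left (r : ℝ) (f : β → ℝ) : avg (fun c => r * f c) = r * avg f := by
  simpa [smul_eq_mul] using avg_smul r f

lemma avg_div (f : β → ℝ) (r : ℝ) : avg (fun c => f c / r) = avg f / r := by
  simp only [div_eq_mul_inv, mul_comm _ r⁻¹]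
  exact avg_mul_left _ _

lemma avg_le_avg {f g : β → ℝ} (h : ∀ c, f c ≤ g c) : avg f ≤ avg g := by
  simp only [avg, smul_eq_mul]
  exact mul_le_mul_of_nonneg_left (sum_le_sum fun c _ => h c) (by positivity)

lemma avg_le [Nonempty β] {f : β → ℝ} {r : ℝ} (h : ∀ c, f c ≤ r) : avg f ≤ r :=
  (avg_le_avg h).trans_eq (avg_const r)

lemma le_card_mul_avg {f : β → ℝ} (hf : ∀ c, 0 ≤ f c) (c : β) :
    f c ≤ Fintype.card β * avg f := by
  haveI : Nonempty β := ⟨c⟩
  have h : (Fintype.card β : ℝ) ≠ 0 := by exact_mod_cast Fintype.card_ne_zero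
  simp only [avg, smul_eq_mul]
  rw [← mul_assoc, mul_inv_cancel₀ h, one_mul]
  exact single_le_sum (fun d _ => hf d) (mem_univ c)

lemma norm_avg_le {Y : Type*} [SeminormedAddCommGroup Y] [NormedSpace ℝ Y] (f : β → Y) :
    ‖avg f‖ ≤ avg fun c => ‖f c‖ := by
  simp only [avg, smul_eq_mul, norm_smul, norm_inv, Real.norm_natCast]
  exact mul_le_mul_of_nonneg_left (norm_sum_le _ _) (by positivity)

lemma avg_pi_prod {ι : Type*} [Fintype ι] [DecidableEq ι] (g : ι → β → ℝ) :
    avg (fun a : ι → β => ∏ l, g l (a l)) = ∏ l, avg (g l) := by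
  simp only [avg, smul_eq_mul, prod_mul_distrib, prod_const, card_univ, Fintype.card_pi,
    Fintype.prod_sum]
  push_cast
  simp [inv_pow]

lemma avg_pi_prod_mul {ι : Type*} [Fintype ι] [DecidableEq ι] (g : ι → β → ℝ) (j : ι) (h : β → ℝ)
    (hg : ∀ l, l ≠ j → avg (g l) = 1) :
    avg (fun a : ι → β => (∏ l, g l (a l)) * h (a j)) = avg fun c => g j c * h c := by
  have hsplit : ∀ a : ι → β, (∏ l, g l (a l)) * h (a j)
      = ∏ l, (if l = j then g l (a l) * h (a l) else g l (a l)) := by
    intro a
    have : ∀ l, (if l = j then g l (a l) * h (a l) else g l (a l))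
        = g l (a l) * (if l = j then h (a l) else 1) := fun l => by split_ifs <;> simp
    simp only [this, prod_mul_distrib, prod_ite_eq', mem_univ, if_true]
  simp only [hsplit]
  rw [avg_pi_prod (fun l c => if l = j then g l c * h c else g l c), prod_eq_single j]
  · simp
  · intro l _ hl; simpa [hl] using hg l hl
  · exact fun h' => absurd (mem_univ j) h'

end

end Vale.Agent.P111
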