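import Mathlib.Analysis.SpecialFunctions.Pow.Real
import Mathlib.Algebra.BigOperators.Fin
import Mathlib.Analysis.Normed.Module.Basic

/-! Rademacher type and cotype. -/

namespace Vale.Agent.P111

open scoped BigOperators

/-- A random sign. -/
def sgn (b : Bool) : ℝ := if b then 1 else -1

/-- The Rademacher average `(E‖∑ εᵢ yᵢ‖²)^(1/2)` over the `2^s` sign choices. -/
noncomputable def radAvg {Y : Type*} [SeminormedAddCommGroup Y] [NormedSpace ℝ Y] {s : ℕ}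
    (y : Fin s → Y) : ℝ :=
  Real.sqrt ((∑ ε : Fin s → Bool, ‖∑ i, sgn (ε i) • y i‖ ^ 2) / (2 : ℝ) ^ s)

/-- Cotype `q` with some constant. -/
def HasCotype (Y : Type*) [SeminormedAddCommGroup Y] [NormedSpace ℝ Y] (q : ℝ) : Prop :=
  ∃ C : ℝ, ∀ (s : ℕ) (y : Fin s → Y), (∑ i, ‖y i‖ ^ q) ^ (1 / q) ≤ C * radAvg y

/-- Type `p` with constant `T`. -/
def HasTypeWith (Y : Type*) [SeminormedAddCommGroup Y] [NormedSpace ℝ Y] (p T : ℝ) : Prop :=
  ∀ (s : ℕ) (y : Fin s → Y), radAvg y ≤ T * (∑ i, ‖y i‖ ^ p) ^ (1 / p)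

end Vale.Agent.P111
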