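import Mathlib

/-!
Derivative at `0` of a real polynomial bounded on `[-1/2, 1/2]`, via a discrete Fejér kernel.
-/

open Finset Complex

namespace Vale.Agent.P111

/-- Counting pairs `l = l' + d` below `N`. -/
lemma sum_diag_shift (N : ℕ) (d : ℕ) :
    (∑ l ∈ range N, ∑ l' ∈ range N, if (l : ℤ) = l' + d then (1 : ℂ) else 0)
      = ((N - d : ℕ) : ℂ) := by
  rw [Finset.sum_comm]
  have h : ∀ l' ∈ range N, (∑ l ∈ range N, if (l : ℤ) = l' + d then (1 : ℂ) else 0)
      = if l' + d < N then (1 : ℂ) else 0 := by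
    intro l' _
    have : ∀ l : ℕ, ((l : ℤ) = l' + d) ↔ l = l' + d := fun l => by omega
    simp only [this, Finset.sum_ite_eq', Finset.mem_range]
  rw [Finset.sum_congr rfl h, ← Finset.sum_filter]
  simp only [Finset.sum_const, nsmul_eq_mul, mul_one]
  congr 1
  rw [show (range N).filter (fun l' => l' + d < N) = range (N - d) by
    ext a; simp only [mem_filter, mem_range]; omega, card_range]

/-- The sum of `ζ^(j s)` over a full period. -/
lemma sum_zpow_period {ζ : ℂ} {M : ℕ} (hζ : IsPrimitiveRoot ζ M) (hM : 0 < M) (e : ℤ)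
    (he : e.natAbs < M) :
    (∑ j ∈ range M, (ζ ^ j) ^ e) = if e = 0 then (M : ℂ) else 0 := by
  split_ifs with h
  · simp [h]
  · have h1 : ζ ^ e ≠ 1 := by
      rw [Ne, hζ.zpow_eq_one_iff_dvd]
      intro hd
      have := Int.natAbs_dvd_natAbs.2 hd
      simp only [Int.natAbs_natCast] at this
      exact h (Int.natAbs_eq_zero.1 (Nat.eq_zero_of_dvd_of_lt this he))
    have h2 : ∀ j : ℕ, (ζ ^ j) ^ e = (ζ ^ e) ^ j := by
      intro j
      rw [← zpow_natCast, ← zpow_natCast, ← zpow_mul, ← zpow_mul, mul_comm]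
    simp only [h2]
    rw [geom_sum_eq h1]
    have : (ζ ^ e) ^ M = 1 := by
      rw [← h2, hζ.pow_eq_one, one_zpow]
    simp [this]

/-- The kernel at a point. -/
noncomputable def kern (N : ℕ) (z : ℂ) : ℂ :=
  (z ^ (N : ℤ) - z ^ (-(N : ℤ))) *
    ((∑ l ∈ range N, z ^ (l : ℤ)) * (∑ l ∈ range N, z ^ (-(l : ℤ))))

lemma kern_sum {ζ : ℂ} {M N : ℕ} (hζ : IsPrimitiveRoot ζ M) (hM : 3 * N < M) (s : ℤ)
    (hs : s.natAbs ≤ N) :
    (∑ j ∈ range M, kern N (ζ ^ j) * (ζ ^ j) ^ s) = -(M : ℂ) * s := by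
  have hz : ∀ j : ℕ, ζ ^ j ≠ 0 := fun j => pow_ne_zero _ (hζ.ne_zero (by omega))
  have expand : ∀ j : ℕ, kern N (ζ ^ j) * (ζ ^ j) ^ s
      = ∑ l ∈ range N, ∑ l' ∈ range N,
          ((ζ ^ j) ^ ((N : ℤ) + l - l' + s) - (ζ ^ j) ^ (-(N : ℤ) + l - l' + s)) := by
    intro j
    rw [kern, Finset.sum_mul_sum, Finset.mul_sum, Finset.sum_mul]
    refine Finset.sum_congr rfl fun l _ => ?_
    rw [Finset.mul_sum, Finset.sum_mul]
    refine Finset.sum_congr rfl fun l' _ => ?_
    simp only [sub_eq_add_neg, zpow_add₀ (hz j)]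
    ring
  simp only [expand]
  rw [Finset.sum_comm]
  have step : ∀ l ∈ range N,
      (∑ j ∈ range M, ∑ l' ∈ range N,
          ((ζ ^ j) ^ ((N : ℤ) + l - l' + s) - (ζ ^ j) ^ (-(N : ℤ) + l - l' + s)))
      = ∑ l' ∈ range N, ((if (N : ℤ) + l - l' + s = 0 then (M : ℂ) else 0)
          - if -(N : ℤ) + l - l' + s = 0 then (M : ℂ) else 0) := by
    intro l hl
    rw [Finset.sum_comm]
    refine Finset.sum_congr rfl fun l' hl' => ?_
    rw [Finset.mem_range] at hl hl'
    rw [Finset.sum_sub_distrib, sum_zpow_period hζ (by omega) _ (by omega),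
      sum_zpow_period hζ (by omega) _ (by omega)]
  rw [Finset.sum_congr rfl step]
  have hM' : ∀ (P : Prop) [Decidable P],
      (if P then (M : ℂ) else 0) = (M : ℂ) * (if P then (1 : ℂ) else 0) := by
    intro P _; split_ifs <;> simp
  simp only [hM', ← mul_sub, ← Finset.mul_sum, Finset.sum_sub_distrib]
  rw [neg_mul, ← mul_neg]
  congr 1
  rcases le_or_gt 0 s with h | h
  · obtain ⟨a, rfl⟩ := Int.eq_ofNat_of_zero_le h
    have ha : a ≤ N := by omega
    have e1 : ∀ l l' : ℕ, ((N : ℤ) + l - l' + a = 0) ↔ (l' : ℤ) = l + ((N + a : ℕ) : ℤ) :=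
      fun l l' => by push_cast; omega
    have e2 : ∀ l l' : ℕ, (-(N : ℤ) + l - l' + a = 0) ↔ (l : ℤ) = l' + ((N - a : ℕ) : ℤ) :=
      fun l l' => by push_cast [Nat.cast_sub ha]; omega
    simp only [e1, e2]
    rw [Finset.sum_comm, sum_diag_shift, sum_diag_shift]
    rw [show N - (N + a) = 0 by omega, show N - (N - a) = a by omega]
    simp
  · obtain ⟨a, ha'⟩ : ∃ a : ℕ, s = -(a : ℤ) := ⟨s.natAbs, by omega⟩
    subst ha'
    have ha : a ≤ N := by omega
    have e1 : ∀ l l' : ℕ, ((N : ℤ) + l - l' + -(a : ℤ) = 0) ↔ (l' : ℤ) = l + ((N - a : ℕ) : ℤ) :=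
      fun l l' => by push_cast [Nat.cast_sub ha]; omega
    have e2 : ∀ l l' : ℕ, (-(N : ℤ) + l - l' + -(a : ℤ) = 0) ↔ (l : ℤ) = l' + ((N + a : ℕ) : ℤ) :=
      fun l l' => by push_cast; omega
    simp only [e1, e2]
    rw [Finset.sum_comm, sum_diag_shift, sum_diag_shift]
    rw [show N - (N + a) = 0 by omega, show N - (N - a) = a by omega]
    simp

lemma norm_kern_le {z : ℂ} (hz : ‖z‖ = 1) (N : ℕ) :
    (‖kern N z‖ : ℝ) ≤ 2 * ((∑ l ∈ range N, z ^ (l : ℤ)) *
        (∑ l ∈ range N, z ^ (-(l : ℤ)))).re := by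
  set A := ∑ l ∈ range N, z ^ (l : ℤ) with hA
  have hz0 : z ≠ 0 := by intro h; simp [h] at hz
  have hB : (∑ l ∈ range N, z ^ (-(l : ℤ))) = (starRingEnd ℂ) A := by
    rw [hA, map_sum]
    refine Finset.sum_congr rfl fun l _ => ?_
    rw [map_zpow₀, zpow_neg, ← inv_zpow, Complex.inv_eq_conj hz]
  rw [kern, hB, Complex.mul_conj]
  rw [norm_mul, Complex.norm_real, Complex.ofReal_re, Real.norm_eq_abs,
    abs_of_nonneg (Complex.normSq_nonneg _)]
  refine mul_le_mul_of_nonneg_right ?_ (Complex.normSq_nonneg _)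
  refine (norm_sub_le _ _).trans ?_
  simp [hz]; norm_num

/-- A real polynomial of degree at most `N`, bounded by `B` on `[-1/2, 1/2]`, has linear
coefficient at most `4 N B`. -/
theorem linear_coeff_le (N : ℕ) (hN : 1 ≤ N) (a : ℕ → ℝ) (B : ℝ)
    (hB : ∀ t : ℝ, |t| ≤ 1 / 2 → |∑ k ∈ range (N + 1), a k * t ^ k| ≤ B) :
    |a 1| ≤ 4 * N * B := by
  set M := 3 * N + 1 with hMdef
  have hM0 : M ≠ 0 := by omega
  set ζ : ℂ := Complex.exp (2 * Real.pi * Complex.I / M) with hζdef
  have hζ : IsPrimitiveRoot ζ M := Complex.isPrimitiveRoot_exp M hM0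
  have hnorm : ∀ j : ℕ, ‖ζ ^ j‖ = 1 := by
    intro j
    rw [norm_pow, Complex.norm_eq_one_of_pow_eq_one hζ.pow_eq_one hM0, one_pow]
  have hz : ∀ j : ℕ, ζ ^ j ≠ 0 := fun j => pow_ne_zero _ (hζ.ne_zero hM0)
  set c : ℂ := 1 / (4 * Complex.I) with hc
  -- the substitution `t = (z - z⁻¹)/(4i) = (Im z)/2`
  let q : ℂ → ℂ := fun z => ∑ k ∈ range (N + 1), (a k : ℂ) * (c * (z - z⁻¹)) ^ k
  have hq : ∀ z : ℂ, ‖z‖ = 1 → ‖q z‖ ≤ B := by
    intro z hz1
    have hsub : c * (z - z⁻¹) = ((z.im / 2 : ℝ) : ℂ) := by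
      rw [Complex.inv_eq_conj hz1, Complex.sub_conj, hc]
      push_cast
      field_simp
      ring
    have him : |z.im / 2| ≤ 1 / 2 := by
      rw [abs_div, abs_two]
      have := Complex.abs_im_le_norm z
      linarith
    calc ‖q z‖ = ‖((∑ k ∈ range (N + 1), a k * (z.im / 2) ^ k : ℝ) : ℂ)‖ := by
          simp only [q, hsub]; push_cast; rfl
      _ ≤ B := by rw [Complex.norm_real, Real.norm_eq_abs]; exact hB _ him
  -- expansion of `(z - z⁻¹)^k`
  have pow_expand : ∀ (z : ℂ), z ≠ 0 → ∀ k : ℕ, (z - z⁻¹) ^ k =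
      ∑ b ∈ range (k + 1), ((-1 : ℂ) ^ (k - b) * (k.choose b : ℂ)) * z ^ (2 * (b : ℤ) - k) := by
    intro z hz0 k
    rw [sub_eq_add_neg, add_pow]
    refine Finset.sum_congr rfl fun b hb => ?_
    rw [Finset.mem_range] at hb
    rw [neg_pow (z⁻¹) (k - b), ← zpow_natCast z b, ← zpow_natCast z⁻¹ (k - b), inv_zpow',
      show (2 * (b : ℤ) - k) = (b : ℤ) + -((k - b : ℕ) : ℤ) by omega, zpow_add₀ hz0]
    ring
  -- the functional
  have lam : (∑ j ∈ range M, kern N (ζ ^ j) * q (ζ ^ j)) = -(M : ℂ) * (2 * c * a 1) := by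
    calc (∑ j ∈ range M, kern N (ζ ^ j) * q (ζ ^ j))
        = ∑ k ∈ range (N + 1), ∑ b ∈ range (k + 1),
            ((a k : ℂ) * c ^ k * ((-1 : ℂ) ^ (k - b) * (k.choose b : ℂ))) *
              (∑ j ∈ range M, kern N (ζ ^ j) * (ζ ^ j) ^ (2 * (b : ℤ) - k)) := by
          simp only [q, Finset.mul_sum]
          rw [Finset.sum_comm]
          refine Finset.sum_congr rfl fun k _ => ?_
          conv_rhs => rw [Finset.sum_comm]
          refine Finset.sum_congr rfl fun j _ => ?_
          rw [mul_pow, pow_expand _ (hz j) k, Finset.mul_sum, Finset.mul_sum, Finset.mul_sum]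
          exact Finset.sum_congr rfl fun b _ => by ring
      _ = ∑ k ∈ range (N + 1), (-(M : ℂ) * ((a k : ℂ) * c ^ k)) *
            ∑ b ∈ range (k + 1), ((-1 : ℂ) ^ (k - b) * (k.choose b : ℂ)) * (2 * (b : ℂ) - k) := by
          refine Finset.sum_congr rfl fun k hk => ?_
          rw [Finset.mul_sum]
          refine Finset.sum_congr rfl fun b hb => ?_
          rw [Finset.mem_range] at hk hb
          rw [kern_sum hζ (by omega) _ (by omega)]
          push_cast
          ring
      _ = ∑ k ∈ range (N + 1), (-(M : ℂ) * ((a k : ℂ) * c ^ k)) *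
            (if k = 1 then (2 : ℂ) else 0) := by
          refine Finset.sum_congr rfl fun k _ => ?_
          congr 1
          -- differentiate `(X - 1)^k` at `1`
          let P : Polynomial ℂ := (Polynomial.X - Polynomial.C 1) ^ k
          have hP : P = ∑ b ∈ range (k + 1),
              Polynomial.C ((-1 : ℂ) ^ (k - b) * (k.choose b : ℂ)) * Polynomial.X ^ b := by
            simp only [P]
            rw [sub_eq_add_neg, add_pow]
            refine Finset.sum_congr rfl fun b _ => ?_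
            simp only [map_one, map_mul, map_pow, map_neg, map_natCast]
            ring
          have h0 : ∑ b ∈ range (k + 1), ((-1 : ℂ) ^ (k - b) * (k.choose b : ℂ))
              = if k = 0 then 1 else 0 := by
            have := congrArg (Polynomial.eval (1 : ℂ)) hP
            simp [P, Polynomial.eval_finsetSum, zero_pow_eq] at this
            exact this.symm
          have h1 : ∑ b ∈ range (k + 1), ((-1 : ℂ) ^ (k - b) * (k.choose b : ℂ)) * b
              = if k = 1 then 1 else 0 := by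
            have := congrArg (fun p => Polynomial.eval (1 : ℂ) (Polynomial.derivative p)) hP
            simp [P, Polynomial.eval_finsetSum, Polynomial.derivative_sum,
              Polynomial.derivative_pow, zero_pow_eq] at this
            rw [← this]
            rcases k with _ | _ | k <;> simp
          calc ∑ b ∈ range (k + 1), ((-1 : ℂ) ^ (k - b) * (k.choose b : ℂ)) * (2 * (b : ℂ) - k)
              = 2 * (∑ b ∈ range (k + 1), ((-1 : ℂ) ^ (k - b) * (k.choose b : ℂ)) * b)
                - k * ∑ b ∈ range (k + 1), ((-1 : ℂ) ^ (k - b) * (k.choose b : ℂ)) := by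
                rw [Finset.mul_sum, Finset.mul_sum, ← Finset.sum_sub_distrib]
                exact Finset.sum_congr rfl fun b _ => by ring
            _ = if k = 1 then 2 else 0 := by
                rw [h0, h1]
                rcases k with _ | _ | k <;> simp
      _ = -(M : ℂ) * (2 * c * a 1) := by
          rw [Finset.sum_eq_single 1]
          · simp; ring
          · intro k _ hk; simp [hk]
          · intro h; exact absurd (Finset.mem_range.2 (by omega)) h
  have B0 : 0 ≤ B := (abs_nonneg _).trans (hB 0 (by norm_num))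
  have tot : (∑ j ∈ range M, ((∑ l ∈ range N, (ζ ^ j) ^ (l : ℤ)) *
      (∑ l ∈ range N, (ζ ^ j) ^ (-(l : ℤ))))) = (M : ℂ) * N := by
    simp only [Finset.sum_mul_sum]
    rw [Finset.sum_comm]
    have : ∀ l ∈ range N, (∑ j ∈ range M, ∑ l' ∈ range N,
        (ζ ^ j) ^ (l : ℤ) * (ζ ^ j) ^ (-(l' : ℤ))) = (M : ℂ) := by
      intro l hl
      rw [Finset.sum_comm]
      have hin : ∀ l' ∈ range N, (∑ j ∈ range M, (ζ ^ j) ^ (l : ℤ) * (ζ ^ j) ^ (-(l' : ℤ)))
          = if l' = l then (M : ℂ) else 0 := by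
        intro l' hl'
        rw [Finset.sum_congr rfl (fun j _ => (zpow_add₀ (hz j) (l : ℤ) (-(l' : ℤ))).symm)]
        rw [Finset.mem_range] at hl hl'
        rw [sum_zpow_period hζ (by omega) _ (by omega)]
        exact if_congr (by omega) rfl rfl
      rw [Finset.sum_congr rfl hin, Finset.sum_ite_eq' (range N) l, if_pos hl]
    rw [Finset.sum_congr rfl this]
    simp
    ring
  have bound : ‖∑ j ∈ range M, kern N (ζ ^ j) * q (ζ ^ j)‖ ≤ 2 * B * (M * N) := by
    refine (norm_sum_le _ _).trans ?_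
    calc ∑ j ∈ range M, ‖kern N (ζ ^ j) * q (ζ ^ j)‖
        ≤ ∑ j ∈ range M, 2 * B * ((∑ l ∈ range N, (ζ ^ j) ^ (l : ℤ)) *
            (∑ l ∈ range N, (ζ ^ j) ^ (-(l : ℤ)))).re := by
          refine Finset.sum_le_sum fun j _ => ?_
          rw [norm_mul]
          have h1 := norm_kern_le (hnorm j) N
          have h2 := hq _ (hnorm j)
          have h3 := mul_le_mul h1 h2 (norm_nonneg _) ((norm_nonneg _).trans h1)
          linarith
      _ = 2 * B * (M * N) := by
          rw [← Finset.mul_sum, ← Complex.re_sum, tot]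
          simp
  rw [lam] at bound
  have hcn : ‖(2 : ℂ) * c * a 1‖ = |a 1| / 2 := by
    rw [hc]
    simp [Real.norm_eq_abs]
    ring
  rw [norm_mul, norm_neg, Complex.norm_natCast, hcn] at bound
  have hMpos : (0 : ℝ) < M := by exact_mod_cast Nat.pos_of_ne_zero hM0
  have h5 : |a 1| / 2 ≤ 2 * B * N :=
    le_of_mul_le_mul_left (by linarith) hMpos
  linarith

end Vale.Agent.P111
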