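import Vale.Agent.P111.Defs
import Vale.Agent.P111.Avg

/-! The one-block kernel of the Riesz product. -/

namespace Vale.Agent.P111

open scoped BigOperators
open Finset

lemma sgn_mul_self (b : Bool) : sgn b * sgn b = 1 := by cases b <;> norm_num [sgn]

lemma sgn_not (b : Bool) : sgn (!b) = -sgn b := by cases b <;> norm_num [sgn]

lemma abs_sgn (b : Bool) : |sgn b| = 1 := by cases b <;> norm_num [sgn]

lemma avg_flip {κ : Type*} [Fintype κ] [DecidableEq κ] (i : κ) (f : (κ → Bool) → ℝ)
    (hf : ∀ a, f (Function.update a i (!a i)) = -f a) : avg f = 0 := by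
  have h : Function.Involutive fun a : κ → Bool => Function.update a i (!a i) := fun a => by simp
  have h1 := avg_equiv h.toPerm f
  simp only [Function.Involutive.coe_toPerm, hf, avg_neg] at h1
  linarith

lemma avg_sgn {κ : Type*} [Fintype κ] [DecidableEq κ] (i : κ) :
    avg (fun a : κ → Bool => sgn (a i)) = 0 :=
  avg_flip i _ fun a => by simp [sgn_not]

lemma avg_sgn_sgn {κ : Type*} [Fintype κ] [DecidableEq κ] (i j : κ) :
    avg (fun a : κ → Bool => sgn (a i) * sgn (a j)) = if i = j then 1 else 0 := by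
  split_ifs with hij
  · subst hij
    simp only [sgn_mul_self]
    exact avg_const 1
  · exact avg_flip i _ fun a => by simp [sgn_not, Function.update_of_ne (Ne.symm hij)]

/-- The one-block kernel. -/
noncomputable def blk {k : ℕ} (a b : Fin k → Bool) : ℝ :=
  (if a = b then (2 : ℝ) ^ k else 0) - 1 - ∑ i, sgn (a i) * sgn (b i)

lemma blk_symm {k : ℕ} (a b : Fin k → Bool) : blk a b = blk b a := by
  simp [blk, eq_comm, mul_comm]

/-- The factor of the Riesz product. -/
noncomputable def fac {k : ℕ} (a b : Fin k → Bool) : ℝ := 1 + blk a b / (1 + k)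

lemma fac_symm {k : ℕ} (a b : Fin k → Bool) : fac a b = fac b a := by simp [fac, blk_symm a b]

lemma fac_nonneg {k : ℕ} (a b : Fin k → Bool) : 0 ≤ fac a b := by
  have h1 : ∑ i, sgn (a i) * sgn (b i) ≤ ∑ _i : Fin k, (1 : ℝ) := sum_le_sum fun i _ => by
    cases a i <;> cases b i <;> norm_num [sgn]
  simp at h1
  have h2 : (0 : ℝ) ≤ if a = b then (2 : ℝ) ^ k else 0 := by split_ifs <;> positivity
  have h3 : -1 ≤ blk a b / (1 + k) := by
    rw [le_div_iff₀ (by positivity), blk]; linarith
  simp only [fac]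
  linarith

lemma avg_blk_smul {k : ℕ} {Y : Type*} [AddCommGroup Y] [Module ℝ Y] (a : Fin k → Bool)
    (f : (Fin k → Bool) → Y) :
    avg (fun b => blk a b • f b)
      = f a - avg f - ∑ i, sgn (a i) • avg (fun b => sgn (b i) • f b) := by
  simp only [blk, sub_smul, one_smul, sum_smul, mul_smul, avg_sub, avg_sum, avg_smul]
  congr 2
  simp [avg, ite_smul, smul_smul]

lemma avg_blk {k : ℕ} (a : Fin k → Bool) : avg (blk a) = 0 := by
  have := avg_blk_smul (Y := ℝ) a fun _ => 1
  simpa [smul_eq_mul, avg_sgn, avg_const] using this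

lemma avg_blk_sgn {k : ℕ} (a : Fin k → Bool) (i : Fin k) :
    avg (fun b => blk a b * sgn (b i)) = 0 := by
  have := avg_blk_smul (Y := ℝ) a fun b => sgn (b i)
  simpa [smul_eq_mul, avg_sgn, avg_sgn_sgn, eq_comm] using this

lemma avg_fac {k : ℕ} (a : Fin k → Bool) : avg (fac a) = 1 := by
  show avg (fun b => 1 + blk a b / (1 + k)) = 1
  rw [avg_add, avg_const, avg_div, avg_blk]
  simp

lemma avg_fac_sgn {k : ℕ} (a : Fin k → Bool) (i : Fin k) :
    avg (fun b => fac a b * sgn (b i)) = 0 := by
  simp only [fac, add_mul, one_mul, div_mul_eq_mul_div]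
  rw [avg_add, avg_div, avg_sgn, avg_blk_sgn]
  simp

end Vale.Agent.P111
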