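import Mathlib
import Vale.Agent.P111.Deriv

/-!
Rademacher projection of a function on the cube with values in a finite-dimensional subspace:
the bound `O(log dim)`.
-/

open Finset

namespace Vale.Agent.P111

/-- The sign of a Boolean. -/
def sgn (b : Bool) : ℝ := if b then 1 else -1

lemma sgn_mul_self (b : Bool) : sgn b * sgn b = 1 := by cases b <;> simp [sgn]
lemma abs_sgn (b : Bool) : |sgn b| = 1 := by cases b <;> simp [sgn]
lemma sgn_not (b : Bool) : sgn (!b) = -sgn b := by cases b <;> simp [sgn]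

variable {n : ℕ}

/-- Expectation over the cube. -/
noncomputable def Ex {V : Type*} [AddCommGroup V] [Module ℝ V] (f : (Fin n → Bool) → V) : V :=
  ((2 : ℝ) ^ n)⁻¹ • ∑ η, f η

lemma Ex_eq (f : (Fin n → Bool) → ℝ) : Ex f = ((2 : ℝ) ^ n)⁻¹ * ∑ η, f η := rfl

lemma Ex_const {V : Type*} [AddCommGroup V] [Module ℝ V] (v : V) :
    Ex (fun _ : Fin n → Bool => v) = v := by
  rw [Ex, Finset.sum_const, Finset.card_univ, Fintype.card_fun, Fintype.card_bool,
    Fintype.card_fin, ← Nat.cast_smul_eq_nsmul ℝ, smul_smul]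
  simp

lemma Ex_mono {f g : (Fin n → Bool) → ℝ} (h : ∀ η, f η ≤ g η) : Ex f ≤ Ex g :=
  mul_le_mul_of_nonneg_left (Finset.sum_le_sum fun η _ => h η) (by positivity)

lemma norm_Ex_le {V : Type*} [NormedAddCommGroup V] [NormedSpace ℝ V]
    (f : (Fin n → Bool) → V) : ‖Ex f‖ ≤ Ex (fun η => ‖f η‖) := by
  rw [Ex, Ex, norm_smul, Real.norm_of_nonneg (by positivity), smul_eq_mul]
  exact mul_le_mul_of_nonneg_left (norm_sum_le _ _) (by positivity)

lemma Ex_abs_le_sqrt (f : (Fin n → Bool) → ℝ) (B : ℝ) (hB : 0 ≤ B)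
    (h : Ex (fun η => f η ^ 2) ≤ B ^ 2) : Ex (fun η => |f η|) ≤ B := by
  rcases eq_or_lt_of_le hB with hB' | hB'
  · subst hB'
    have hz : ∀ η, f η = 0 := by
      intro η
      have h1 : ∑ η, f η ^ 2 ≤ 0 := by
        rw [Ex_eq] at h
        have : (0 : ℝ) < ((2 : ℝ) ^ n)⁻¹ := by positivity
        nlinarith
      have := (Finset.sum_eq_zero_iff_of_nonneg (fun η _ => sq_nonneg (f η))).1
        (le_antisymm h1 (Finset.sum_nonneg fun η _ => sq_nonneg _)) η (Finset.mem_univ _)
      simpa using this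
    simp [hz, Ex]
  · have hp : ∀ η, |f η| ≤ (f η ^ 2 + B ^ 2) / (2 * B) := by
      intro η
      rw [le_div_iff₀ (by positivity)]
      nlinarith [sq_nonneg (|f η| - B), sq_abs (f η)]
    refine (Ex_mono hp).trans ?_
    have : Ex (fun η => (f η ^ 2 + B ^ 2) / (2 * B))
        = (Ex (fun η => f η ^ 2) + Ex (fun _ : Fin n → Bool => B ^ 2)) / (2 * B) := by
      simp only [Ex_eq, ← Finset.sum_div, Finset.sum_add_distrib]; ring
    rw [this, Ex_const, div_le_iff₀ (by positivity)]
    nlinarith

/-- Walsh character. -/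
def chi (S : Finset (Fin n)) (η : Fin n → Bool) : ℝ := ∏ i ∈ S, sgn (η i)

/-- Flip one coordinate. -/
def flipAt (i : Fin n) : (Fin n → Bool) ≃ (Fin n → Bool) :=
  Function.Involutive.toPerm (fun η => Function.update η i (!η i)) (by
    intro η; ext j
    by_cases h : j = i
    · subst h; simp
    · simp [Function.update_of_ne h])

lemma flipAt_self (i : Fin n) (η : Fin n → Bool) : flipAt i η i = !η i := by
  simp [flipAt, Function.Involutive.toPerm]

lemma flipAt_of_ne {i j : Fin n} (h : j ≠ i) (η : Fin n → Bool) : flipAt i η j = η j := by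
  simp [flipAt, Function.Involutive.toPerm, Function.update_of_ne h]

lemma chi_flip (S : Finset (Fin n)) (i : Fin n) (η : Fin n → Bool) :
    chi S (flipAt i η) = if i ∈ S then -chi S η else chi S η := by
  split_ifs with h
  · rw [chi, chi, ← Finset.mul_prod_erase S _ h, ← Finset.mul_prod_erase S _ h, flipAt_self,
      sgn_not, neg_mul]
    congr 2
    exact Finset.prod_congr rfl fun j hj => by rw [flipAt_of_ne (Finset.ne_of_mem_erase hj)]
  · exact Finset.prod_congr rfl fun j hj => by rw [flipAt_of_ne (fun e => h (by rw [← e]; exact hj))]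

lemma chi_orth (S T : Finset (Fin n)) :
    Ex (fun η => chi S η * chi T η) = if S = T then 1 else 0 := by
  split_ifs with h
  · subst h
    have : ∀ η, chi S η * chi S η = 1 := by
      intro η
      rw [chi, ← Finset.prod_mul_distrib]
      exact Finset.prod_eq_one fun i _ => sgn_mul_self _
    simp only [this, Ex_const]
  · obtain ⟨i, hi⟩ : ∃ i, ¬(i ∈ S ↔ i ∈ T) := by
      by_contra hc; push Not at hc; exact h (Finset.ext hc)
    rw [Ex_eq]
    have : ∑ η, chi S η * chi T η = -∑ η, chi S η * chi T η := by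
      conv_lhs => rw [← Equiv.sum_comp (flipAt i)]
      rw [← Finset.sum_neg_distrib]
      refine Finset.sum_congr rfl fun η _ => ?_
      rw [chi_flip, chi_flip]
      by_cases hS : i ∈ S <;> by_cases hT : i ∈ T <;> simp_all
    rw [show ∑ η, chi S η * chi T η = 0 by linarith, mul_zero]

/-- Bessel. -/
lemma bessel (f : (Fin n → Bool) → ℝ) (𝒮 : Finset (Finset (Fin n))) :
    Ex (fun η => (∑ S ∈ 𝒮, Ex (fun δ => chi S δ * f δ) * chi S η) ^ 2)
      ≤ Ex (fun η => f η ^ 2) := by
  set c : Finset (Fin n) → ℝ := fun S => Ex (fun δ => chi S δ * f δ) with hc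
  have h1 : Ex (fun η => (∑ S ∈ 𝒮, c S * chi S η) ^ 2) = ∑ S ∈ 𝒮, c S ^ 2 := by
    calc Ex (fun η => (∑ S ∈ 𝒮, c S * chi S η) ^ 2)
        = ∑ S ∈ 𝒮, ∑ T ∈ 𝒮, c S * c T * Ex (fun η => chi S η * chi T η) := by
          have hp : ∀ η, (∑ S ∈ 𝒮, c S * chi S η) ^ 2
              = ∑ S ∈ 𝒮, ∑ T ∈ 𝒮, c S * c T * (chi S η * chi T η) := by
            intro η
            rw [sq, Finset.sum_mul_sum]
            exact Finset.sum_congr rfl fun S _ => Finset.sum_congr rfl fun T _ => by ring
          simp only [hp, Ex_eq, Finset.mul_sum]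
          rw [Finset.sum_comm]
          refine Finset.sum_congr rfl fun S _ => ?_
          rw [Finset.sum_comm]
          exact Finset.sum_congr rfl fun T _ => Finset.sum_congr rfl fun η _ => by ring
      _ = ∑ S ∈ 𝒮, c S ^ 2 := by
          refine Finset.sum_congr rfl fun S hS => ?_
          simp [chi_orth, hS, sq]
  have h2 : Ex (fun η => f η * ∑ S ∈ 𝒮, c S * chi S η) = ∑ S ∈ 𝒮, c S ^ 2 := by
    simp only [Ex_eq, Finset.mul_sum]
    rw [Finset.sum_comm]
    refine Finset.sum_congr rfl fun S _ => ?_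
    rw [sq]
    nth_rewrite 3 [hc]
    simp only [Ex_eq, Finset.mul_sum]
    exact Finset.sum_congr rfl fun η _ => by ring
  have h3 : 0 ≤ Ex (fun η => (f η - ∑ S ∈ 𝒮, c S * chi S η) ^ 2) := by
    rw [Ex_eq]; positivity
  have h4 : Ex (fun η => (f η - ∑ S ∈ 𝒮, c S * chi S η) ^ 2)
      = Ex (fun η => f η ^ 2) - 2 * Ex (fun η => f η * ∑ S ∈ 𝒮, c S * chi S η)
        + Ex (fun η => (∑ S ∈ 𝒮, c S * chi S η) ^ 2) := by
    simp only [Ex_eq, sub_sq, Finset.sum_add_distrib, Finset.sum_sub_distrib, mul_assoc,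
      ← Finset.mul_sum]
    ring
  rw [h1]
  rw [h4, h1, h2] at h3
  linarith

variable {V : Type*} [NormedAddCommGroup V] [NormedSpace ℝ V]

/-- Auerbach-type system for a finite-dimensional space. -/
lemma auerbach (W : Submodule ℝ V) [FiniteDimensional ℝ W] :
    ∃ (v : Fin (Module.finrank ℝ W) → W) (ψ : Fin (Module.finrank ℝ W) → (W →ₗ[ℝ] ℝ)),
      (∀ a, ‖v a‖ ≤ 1) ∧ (∀ a w, |ψ a w| ≤ ‖w‖) ∧ ∀ w, w = ∑ a, ψ a w • v a := by
  classical
  set b := Module.finBasis ℝ W
  have : ProperSpace W := FiniteDimensional.proper ℝ W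
  let K : Set (Fin (Module.finrank ℝ W) → W) := Set.univ.pi fun _ => Metric.closedBall (0 : W) 1
  have hK : IsCompact K := isCompact_univ_pi fun _ => isCompact_closedBall _ _
  have hcont : Continuous fun v : Fin (Module.finrank ℝ W) → W => |b.det v| := by
    refine continuous_abs.comp ?_
    change Continuous fun v : Fin (Module.finrank ℝ W) → W => b.det v
    simp only [Module.Basis.det_apply]
    refine Continuous.matrix_det (continuous_matrix fun i j => ?_)
    exact (b.coord i).continuous_of_finiteDimensional.comp (continuous_apply j)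
  have hne : K.Nonempty := ⟨0, fun i _ => by simp⟩
  obtain ⟨v, hvK, hv⟩ := hK.exists_isMaxOn hne hcont.continuousOn
  have hball : ∀ a, ‖v a‖ ≤ 1 := fun a => by simpa using hvK a (Set.mem_univ a)
  -- the maximum is positive
  have hpos : b.det v ≠ 0 := by
    intro h0
    let u : Fin (Module.finrank ℝ W) → ℝˣ :=
      fun a => Units.mk0 (‖b a‖⁻¹) (inv_ne_zero (norm_ne_zero_iff.2 (b.ne_zero a)))
    let b' := b.unitsSMul u
    have hb' : (fun a => b' a) ∈ K := by
      intro a _
      rw [mem_closedBall_zero_iff]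
      simp only [b', Module.Basis.unitsSMul_apply, Units.smul_def, u, Units.val_mk0, norm_smul,
        norm_inv, norm_norm]
      rw [inv_mul_cancel₀ (norm_ne_zero_iff.2 (b.ne_zero a))]
    have hle : |b.det (fun a => b' a)| ≤ |b.det v| := hv hb'
    rw [h0, abs_zero, abs_nonpos_iff] at hle
    exact (b.isUnit_det b').ne_zero hle
  have hli := ((Module.Basis.is_basis_iff_det b).2 (isUnit_iff_ne_zero.2 hpos))
  let B := Module.Basis.mk hli.1 hli.2.ge
  have key : ∀ (a) (w : W), b.det v * B.coord a w = b.det (Function.update v a w) := by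
    intro a w
    have := LinearMap.congr_fun (b.det_smul_mk_coord_eq_det_update hli.1 hli.2.ge a) w
    exact this
  refine ⟨v, fun a => B.coord a, hball, fun a w => ?_, fun w => ?_⟩
  · rcases eq_or_ne w 0 with hw | hw
    · simp [hw]
    have hn : 0 < ‖w‖ := norm_pos_iff.2 hw
    have hmem : Function.update v a (‖w‖⁻¹ • w) ∈ K := by
      intro i _
      rw [mem_closedBall_zero_iff]
      by_cases hi : i = a
      · subst hi
        rw [Function.update_self, norm_smul, norm_inv, norm_norm, inv_mul_cancel₀ hn.ne']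
      · rw [Function.update_of_ne hi]; exact hball i
    have hle : |b.det (Function.update v a (‖w‖⁻¹ • w))| ≤ |b.det v| := hv hmem
    rw [← key, map_smul, smul_eq_mul, abs_mul, abs_mul, abs_inv, abs_of_pos hn] at hle
    have h1 : ‖w‖⁻¹ * |B.coord a w| ≤ 1 := by
      refine le_of_mul_le_mul_left ?_ (abs_pos.2 hpos)
      simpa using hle
    rwa [inv_mul_le_iff₀ hn, mul_one] at h1
  · conv_lhs => rw [← B.sum_repr w]
    simp [B, Module.Basis.mk_apply]

/-- `e_k (η δ)`. -/
def ker_k (k : ℕ) (η δ : Fin n → Bool) : ℝ :=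
  ∑ S ∈ (univ : Finset (Fin n)).powersetCard k, chi S η * chi S δ

/-- Level-`k` part of `F`. -/
noncomputable def lev (F : (Fin n → Bool) → V) (k : ℕ) (η : Fin n → Bool) : V :=
  Ex (fun δ => ker_k k η δ • F δ)

lemma sum_ker {N : ℕ} (hN : n ≤ N) (t : ℝ) (η δ : Fin n → Bool) :
    ∑ k ∈ range (N + 1), t ^ k * ker_k k η δ = ∏ i, (1 + t * (sgn (η i) * sgn (δ i))) := by
  rw [Finset.prod_one_add, Finset.sum_powerset]
  rw [Finset.card_univ, Fintype.card_fin]
  rw [← Finset.sum_subset (Finset.range_mono (show n + 1 ≤ N + 1 by omega))]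
  · refine Finset.sum_congr rfl fun k _ => ?_
    rw [ker_k, Finset.mul_sum]
    refine Finset.sum_congr rfl fun S hS => ?_
    rw [Finset.prod_mul_distrib, Finset.prod_const, (Finset.mem_powersetCard.1 hS).2,
      Finset.prod_mul_distrib]
    rfl
  · intro k _ hk
    rw [ker_k, Finset.powersetCard_eq_empty.2 (by
      simp only [Finset.mem_range, not_lt] at hk; simp; omega)]
    simp

lemma sum_prod_kernel (t : ℝ) (η : Fin n → Bool) :
    Ex (fun δ => ∏ i, (1 + t * (sgn (η i) * sgn (δ i)))) = 1 := by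
  rw [Ex_eq, ← Fintype.prod_sum (fun i b => 1 + t * (sgn (η i) * sgn b))]
  have hi : ∀ i, (∑ b : Bool, (1 + t * (sgn (η i) * sgn b))) = 2 := by
    intro i
    rw [Fintype.sum_bool]
    simp [sgn]
    split_ifs <;> ring
  simp only [hi, Finset.prod_const, Finset.card_univ, Fintype.card_fin]
  exact inv_mul_cancel₀ (by positivity)

theorem rad_bound (F : (Fin n → Bool) → V) (W : Submodule ℝ V) [FiniteDimensional ℝ W]
    (hF : ∀ δ, F δ ∈ W) (L : ℝ) (hL : ∀ δ, ‖F δ‖ ≤ L) :
    Ex (fun η => ‖∑ i, sgn (η i) • Ex (fun δ => sgn (δ i) • F δ)‖)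
      ≤ 8 * ((Nat.clog 2 (Module.finrank ℝ W) + 1 : ℕ) : ℝ) * L := by
  classical
  set D := Module.finrank ℝ W with hD
  set N := Nat.clog 2 D + 1 with hN
  have hL0 : 0 ≤ L := (norm_nonneg _).trans (hL fun _ => true)
  -- level one
  have hone : ∀ η, lev F 1 η = ∑ i, sgn (η i) • Ex (fun δ => sgn (δ i) • F δ) := by
    intro η
    simp only [lev, ker_k, Finset.powersetCard_one, Finset.sum_map,
      Function.Embedding.coeFn_mk, chi, Finset.prod_singleton, Ex, Finset.smul_sum, smul_smul,
      Finset.sum_smul]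
    rw [Finset.sum_comm]
    exact Finset.sum_congr rfl fun i _ => Finset.sum_congr rfl fun δ _ => by
      rw [← mul_assoc, ← mul_assoc]; congr 1; ring
  -- levels are small on average
  have hlev : ∀ k, Ex (fun η => ‖lev F k η‖) ≤ D * L := by
    intro k
    obtain ⟨v, ψ, hv, hψ, hrep⟩ := auerbach W
    let F' : (Fin n → Bool) → W := fun δ => ⟨F δ, hF δ⟩
    have hlF : ∀ η, lev F k η = ((lev F' k η : W) : V) := by
      intro η; simp [lev, Ex, F']
    have h1 : ∀ η, ‖lev F k η‖ ≤ ∑ a, |ψ a (lev F' k η)| := by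
      intro η
      rw [hlF η, ← Submodule.coe_norm]
      calc ‖lev F' k η‖ = ‖∑ a, ψ a (lev F' k η) • v a‖ := by rw [← hrep]
        _ ≤ ∑ a, ‖ψ a (lev F' k η) • v a‖ := norm_sum_le _ _
        _ ≤ ∑ a, |ψ a (lev F' k η)| := by
          refine Finset.sum_le_sum fun a _ => ?_
          rw [norm_smul, Real.norm_eq_abs]
          exact mul_le_of_le_one_right (abs_nonneg _) (hv a)
    have h2 : ∀ a, Ex (fun η => |ψ a (lev F' k η)|) ≤ L := by
      intro a
      refine Ex_abs_le_sqrt _ L hL0 ?_
      have hexp : ∀ η, ψ a (lev F' k η) = ∑ S ∈ (univ : Finset (Fin n)).powersetCard k,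
          Ex (fun δ => chi S δ * ψ a (F' δ)) * chi S η := by
        intro η
        simp only [lev, ker_k, Ex, map_smul, map_sum, smul_eq_mul, Finset.sum_mul, Finset.mul_sum]
        rw [Finset.sum_comm]
        exact Finset.sum_congr rfl fun S _ => Finset.sum_congr rfl fun δ _ => by ring
      simp only [hexp]
      refine (bessel (fun δ => ψ a (F' δ)) _).trans ?_
      calc Ex (fun δ => ψ a (F' δ) ^ 2) ≤ Ex (fun _ : Fin n → Bool => L ^ 2) := by
            refine Ex_mono fun δ => ?_
            rw [← sq_abs]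
            exact pow_le_pow_left₀ (abs_nonneg _) ((hψ a _).trans (hL δ)) 2
        _ = L ^ 2 := Ex_const _
    calc Ex (fun η => ‖lev F k η‖) ≤ Ex (fun η => ∑ a, |ψ a (lev F' k η)|) := Ex_mono h1
      _ = ∑ a, Ex (fun η => |ψ a (lev F' k η)|) := by
          simp only [Ex_eq, Finset.mul_sum]; rw [Finset.sum_comm]
      _ ≤ ∑ _a : Fin D, L := Finset.sum_le_sum fun a _ => h2 a
      _ = D * L := by simp
  -- norming functionals for level one
  choose φ hφ1 hφ2 using fun η => exists_dual_vector'' ℝ (lev F 1 η)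
  let c : ℕ → ℝ := fun k => Ex (fun η => φ η (lev F k η))
  have hc1 : c 1 = Ex (fun η => ‖∑ i, sgn (η i) • Ex (fun δ => sgn (δ i) • F δ)‖) := by
    simp only [c, ← hone, hφ2, RCLike.ofReal_real_eq_id, id_eq]
  have hck : ∀ k, |c k| ≤ D * L := by
    intro k
    refine le_trans ?_ (hlev k)
    rw [← Real.norm_eq_abs]
    refine (norm_Ex_le _).trans (Ex_mono fun η => ?_)
    refine ((φ η).le_opNorm _).trans ?_
    exact mul_le_of_le_one_left (norm_nonneg _) (hφ1 η)
  have hpow : (D : ℝ) ≤ 2 ^ N := by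
    have h1 : D ≤ 2 ^ Nat.clog 2 D := Nat.le_pow_clog (by norm_num) _
    have h2 : (2 : ℕ) ^ Nat.clog 2 D ≤ 2 ^ N := Nat.pow_le_pow_right (by norm_num) (by omega)
    exact_mod_cast h1.trans h2
  have hbound : ∀ t : ℝ, |t| ≤ 1 / 2 → |∑ k ∈ range (N + 1), c k * t ^ k| ≤ 2 * L := by
    intro t ht
    have hfull : |∑ k ∈ range (N + n + 1), c k * t ^ k| ≤ L := by
      have hEq : ∑ k ∈ range (N + n + 1), c k * t ^ k
          = Ex (fun η => φ η (Ex (fun δ =>
              (∏ i, (1 + t * (sgn (η i) * sgn (δ i)))) • F δ))) := by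
        have hin : ∀ η, φ η (Ex (fun δ => (∏ i, (1 + t * (sgn (η i) * sgn (δ i)))) • F δ))
            = ∑ k ∈ range (N + n + 1), φ η (lev F k η) * t ^ k := by
          intro η
          simp only [← sum_ker (show n ≤ N + n by omega) t η, lev, Ex, map_smul, map_sum,
            smul_eq_mul, Finset.sum_mul, Finset.mul_sum]
          rw [Finset.sum_comm]
          exact Finset.sum_congr rfl fun k _ => Finset.sum_congr rfl fun δ _ => by ring
        simp only [hin, c, Ex_eq, Finset.sum_mul, Finset.mul_sum]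
        rw [Finset.sum_comm]
        exact Finset.sum_congr rfl fun k _ => Finset.sum_congr rfl fun η _ => by ring
      rw [hEq, ← Real.norm_eq_abs]
      refine (norm_Ex_le _).trans ((Ex_mono fun η => ?_).trans (Ex_const L).le)
      refine ((φ η).le_opNorm _).trans ((mul_le_of_le_one_left (norm_nonneg _) (hφ1 η)).trans ?_)
      refine (norm_Ex_le _).trans ?_
      calc Ex (fun δ => ‖(∏ i, (1 + t * (sgn (η i) * sgn (δ i)))) • F δ‖)
          ≤ Ex (fun δ => (∏ i, (1 + t * (sgn (η i) * sgn (δ i)))) * L) := by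
            refine Ex_mono fun δ => ?_
            have hp : 0 ≤ ∏ i, (1 + t * (sgn (η i) * sgn (δ i))) := by
              refine Finset.prod_nonneg fun i _ => ?_
              have : |t * (sgn (η i) * sgn (δ i))| ≤ 1 / 2 := by
                rw [abs_mul, abs_mul, abs_sgn, abs_sgn]; simpa using ht
              linarith [(abs_le.1 this).1]
            rw [norm_smul, Real.norm_of_nonneg hp]
            exact mul_le_mul_of_nonneg_left (hL δ) hp
        _ = L := by
            have : Ex (fun δ => (∏ i, (1 + t * (sgn (η i) * sgn (δ i)))) * L)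
                = Ex (fun δ => ∏ i, (1 + t * (sgn (η i) * sgn (δ i)))) * L := by
              simp only [Ex_eq, Finset.sum_mul, Finset.mul_sum]
              exact Finset.sum_congr rfl fun δ _ => by ring
            rw [this, sum_prod_kernel, one_mul]
    have hsplit : ∑ k ∈ range (N + n + 1), c k * t ^ k
        = ∑ k ∈ range (N + 1), c k * t ^ k + ∑ j ∈ range n, c (N + 1 + j) * t ^ (N + 1 + j) := by
      rw [show N + n + 1 = N + 1 + n by omega, Finset.sum_range_add]
    have htail : |∑ j ∈ range n, c (N + 1 + j) * t ^ (N + 1 + j)| ≤ L := by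
      refine (Finset.abs_sum_le_sum_abs _ _).trans ?_
      calc ∑ j ∈ range n, |c (N + 1 + j) * t ^ (N + 1 + j)|
          ≤ ∑ j ∈ range n, (D * L) * (1 / 2) ^ (N + 1) * (1 / 2) ^ j := by
            refine Finset.sum_le_sum fun j _ => ?_
            rw [abs_mul, abs_pow, mul_assoc, ← pow_add]
            exact mul_le_mul (hck _) (pow_le_pow_left₀ (abs_nonneg _) ht _) (by positivity)
              (by positivity)
        _ ≤ (D * L) * (1 / 2) ^ (N + 1) * 2 := by
            rw [← Finset.mul_sum]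
            exact mul_le_mul_of_nonneg_left (sum_geometric_two_le n) (by positivity)
        _ = (D / 2 ^ N) * L := by rw [div_pow, one_pow, pow_succ]; field_simp
        _ ≤ 1 * L := mul_le_mul_of_nonneg_right ((div_le_one (by positivity)).2 hpow) hL0
        _ = L := one_mul L
    have := abs_sub (∑ k ∈ range (N + n + 1), c k * t ^ k)
      (∑ j ∈ range n, c (N + 1 + j) * t ^ (N + 1 + j))
    rw [hsplit, add_sub_cancel_right] at this
    rw [hsplit] at hfull
    linarith
  have hfin := linear_coeff_le N (by omega) c (2 * L) hbound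
  rw [← hc1]
  linarith [le_abs_self (c 1)]

end Vale.Agent.P111
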