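import Mathlib
import Vale.Agent.P111.RadBound

/-!
`ℓ₁ⁿ` inside a space whose dual has cotype forces large finite rank.
-/

open Finset

namespace Vale.Agent.P111

variable {n : ℕ} {V : Type*} [NormedAddCommGroup V] [NormedSpace ℝ V]

/-- Cotype `r` with constant `C`, in terms of `Ex`. -/
def Cot (V : Type*) [NormedAddCommGroup V] [NormedSpace ℝ V] (r C : ℝ) : Prop :=
  ∀ (s : ℕ) (y : Fin s → V),
    (∑ i, ‖y i‖ ^ r) ^ (1 / r) ≤ C * Real.sqrt (Ex fun η => ‖∑ i, sgn (η i) • y i‖ ^ 2)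

/-- Worst signed sum over `A`. -/
noncomputable def maxSum (g : Fin n → V) (A : Finset (Fin n)) : ℝ :=
  (univ : Finset (Fin n → Bool)).sup' univ_nonempty fun σ => ‖∑ i ∈ A, sgn (σ i) • g i‖

lemma le_maxSum (g : Fin n → V) (A : Finset (Fin n)) (σ : Fin n → Bool) :
    ‖∑ i ∈ A, sgn (σ i) • g i‖ ≤ maxSum g A :=
  Finset.le_sup' (fun σ => ‖∑ i ∈ A, sgn (σ i) • g i‖) (Finset.mem_univ σ)

/-- Rademacher contraction principle, Talagrand's form. -/
lemma contraction {ι : Type*} [Nonempty ι] (T : ι → Fin n → ℝ) (M : ℝ)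
    (hT : ∀ t i, |T t i| ≤ M) (ψ : Fin n → ℝ → ℝ)
    (hψ : ∀ i a b, |ψ i a - ψ i b| ≤ |a - b|) (hψ0 : ∀ i, ψ i 0 = 0) :
    Ex (fun η => ⨆ t, ∑ i, sgn (η i) * ψ i (T t i))
      ≤ Ex (fun η => ⨆ t, ∑ i, sgn (η i) * T t i) := by
  classical
  let G : Finset (Fin n) → ι → Fin n → ℝ := fun s t i => if i ∈ s then ψ i (T t i) else T t i
  have hG : ∀ s t i, |G s t i| ≤ M := by
    intro s t i
    simp only [G]; split_ifs
    · have := hψ i (T t i) 0
      rw [hψ0, sub_zero, sub_zero] at this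
      exact this.trans (hT t i)
    · exact hT t i
  have hbdd : ∀ (s : Finset (Fin n)) (η : Fin n → Bool),
      BddAbove (Set.range fun t => ∑ i, sgn (η i) * G s t i) := by
    intro s η
    refine ⟨∑ _i : Fin n, M, ?_⟩
    rintro _ ⟨t, rfl⟩
    refine Finset.sum_le_sum fun i _ => (le_abs_self _).trans ?_
    rw [abs_mul, abs_sgn, one_mul]
    exact hG s t i
  have step : ∀ s : Finset (Fin n), ∀ a ∉ s,
      Ex (fun η => ⨆ t, ∑ i, sgn (η i) * G (insert a s) t i)
        ≤ Ex (fun η => ⨆ t, ∑ i, sgn (η i) * G s t i) := by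
    intro s a ha
    rw [Ex_eq, Ex_eq]
    refine mul_le_mul_of_nonneg_left ?_ (by positivity)
    have dbl : ∀ f : (Fin n → Bool) → ℝ, 2 * ∑ η, f η = ∑ η, (f η + f (flipAt a η)) := by
      intro f; rw [Finset.sum_add_distrib, Equiv.sum_comp (flipAt a) f]; ring
    suffices h : ∀ η, (⨆ t, ∑ i, sgn (η i) * G (insert a s) t i)
        + (⨆ t, ∑ i, sgn (flipAt a η i) * G (insert a s) t i)
        ≤ (⨆ t, ∑ i, sgn (η i) * G s t i) + (⨆ t, ∑ i, sgn (flipAt a η i) * G s t i) by
      refine le_of_mul_le_mul_left ?_ (two_pos : (0 : ℝ) < 2)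
      rw [dbl, dbl]
      exact Finset.sum_le_sum fun η _ => h η
    intro η
    refine ciSup_add_ciSup_le fun t t' => ?_
    have split : ∀ (η : Fin n → Bool) (H : Fin n → ℝ),
        ∑ i, sgn (η i) * H i = sgn (η a) * H a + ∑ i ∈ univ.erase a, sgn (η i) * H i :=
      fun η H => (Finset.add_sum_erase univ _ (Finset.mem_univ a)).symm
    have hrest : ∀ t, ∀ i ∈ univ.erase a, G (insert a s) t i = G s t i := by
      intro t i hi
      simp [G, Finset.ne_of_mem_erase hi]
    have hflip : ∀ (H : Fin n → ℝ), ∑ i ∈ univ.erase a, sgn (flipAt a η i) * H i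
        = ∑ i ∈ univ.erase a, sgn (η i) * H i := fun H =>
      Finset.sum_congr rfl fun i hi => by rw [flipAt_of_ne (Finset.ne_of_mem_erase hi)]
    have hga : ∀ t, G (insert a s) t a = ψ a (T t a) := fun t => by simp [G]
    have hga' : ∀ t, G s t a = T t a := fun t => by simp [G, ha]
    set A := ∑ i ∈ univ.erase a, sgn (η i) * G s t i
    set A' := ∑ i ∈ univ.erase a, sgn (η i) * G s t' i
    have u1 : ∑ i, sgn (η i) * G (insert a s) t i = sgn (η a) * ψ a (T t a) + A := by
      rw [split, hga, Finset.sum_congr rfl fun i hi => by rw [hrest t i hi]]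
    have u2 : ∑ i, sgn (flipAt a η i) * G (insert a s) t' i
        = -(sgn (η a) * ψ a (T t' a)) + A' := by
      rw [split, hga, hflip, flipAt_self, sgn_not, neg_mul,
        Finset.sum_congr rfl fun i hi => by rw [hrest t' i hi]]
    have l1 : ∀ u, sgn (η a) * T u a + ∑ i ∈ univ.erase a, sgn (η i) * G s u i
        ≤ ⨆ t, ∑ i, sgn (η i) * G s t i := by
      intro u
      refine le_trans (le_of_eq ?_) (le_ciSup (hbdd s η) u)
      rw [split, hga']
    have l2 : ∀ u, -(sgn (η a) * T u a) + ∑ i ∈ univ.erase a, sgn (η i) * G s u i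
        ≤ ⨆ t, ∑ i, sgn (flipAt a η i) * G s t i := by
      intro u
      refine le_trans (le_of_eq ?_) (le_ciSup (hbdd s _) u)
      rw [split, hga', hflip, flipAt_self, sgn_not, neg_mul]
    rw [u1, u2]
    have hd := hψ a (T t a) (T t' a)
    have hs := abs_sgn (η a)
    have key : sgn (η a) * ψ a (T t a) - sgn (η a) * ψ a (T t' a)
        ≤ |sgn (η a) * T t a - sgn (η a) * T t' a| := by
      refine (le_abs_self _).trans ?_
      rw [← mul_sub, ← mul_sub, abs_mul, abs_mul, hs, one_mul, one_mul]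
      exact hd
    rcases le_total 0 (sgn (η a) * T t a - sgn (η a) * T t' a) with h | h
    · rw [abs_of_nonneg h] at key
      have := l1 t; have := l2 t'
      linarith
    · rw [abs_of_nonpos h] at key
      have := l1 t'; have := l2 t
      linarith
  have all : ∀ s : Finset (Fin n), Ex (fun η => ⨆ t, ∑ i, sgn (η i) * G s t i)
      ≤ Ex (fun η => ⨆ t, ∑ i, sgn (η i) * T t i) := by
    intro s
    induction s using Finset.induction_on with
    | empty => simp [G]
    | insert a s ha ih => exact (step s a ha).trans ih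
  simpa [G] using all univ

/-- One halving step. -/
lemma halve (g : Fin n → V) (A : Finset (Fin n)) :
    ∃ A' : Finset (Fin n), A.card ≤ 2 * A'.card ∧
      maxSum g A' ≤ maxSum g A / 2 + Ex (fun η => ‖∑ i, sgn (η i) • g i‖) := by
  classical
  set R := Ex (fun η => ‖∑ i, sgn (η i) • g i‖)
  let ι := {φ : StrongDual ℝ V // ‖φ‖ ≤ 1}
  have : Nonempty ι := ⟨⟨0, by simp⟩⟩
  let T : ι → Fin n → ℝ := fun φ i => φ.1 (g i)
  set M := ∑ i, ‖g i‖
  have hT : ∀ t i, |T t i| ≤ M := by
    intro t i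
    refine ((t.1).le_opNorm _).trans ((mul_le_of_le_one_left (norm_nonneg _) t.2).trans ?_)
    exact Finset.single_le_sum (f := fun i => ‖g i‖) (fun i _ => norm_nonneg _) (Finset.mem_univ i)
  let ψ : Fin n → ℝ → ℝ := fun i a => if i ∈ A then |a| else 0
  let F : (Fin n → Bool) → ℝ := fun η => ⨆ t, ∑ i, sgn (η i) * ψ i (T t i)
  have hF : Ex F ≤ R := by
    refine (contraction T M hT ψ ?_ ?_).trans (Ex_mono fun η => ciSup_le fun t => ?_)
    · intro i a b; simp only [ψ]; split_ifs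
      · exact abs_abs_sub_abs_le_abs_sub a b
      · simp
    · intro i; simp [ψ]
    · have : ∑ i, sgn (η i) * T t i = t.1 (∑ i, sgn (η i) • g i) := by simp [T, map_sum]
      rw [this]
      exact (le_abs_self _).trans
        (((t.1).le_opNorm _).trans (mul_le_of_le_one_left (norm_nonneg _) t.2))
  have hbdd : ∀ η : Fin n → Bool,
      BddAbove (Set.range fun t => ∑ i, sgn (η i) * ψ i (T t i)) := by
    intro η
    refine ⟨∑ _i : Fin n, M, ?_⟩
    rintro _ ⟨t, rfl⟩
    refine Finset.sum_le_sum fun i _ => (le_abs_self _).trans ?_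
    rw [abs_mul, abs_sgn, one_mul]
    simp only [ψ]; split_ifs
    · rw [abs_abs]; exact hT t i
    · simp [M, Finset.sum_nonneg]
  have hF0 : ∀ η, 0 ≤ F η := by
    intro η
    refine le_trans (le_of_eq ?_) (le_ciSup (hbdd η) (⟨0, by simp⟩ : ι))
    simp [T, ψ]
  let sel : (Fin n → Bool) → Finset (Fin n) := fun η => A.filter fun i => η i = true
  obtain ⟨η, hη1, hη2⟩ : ∃ η, A.card ≤ 2 * (sel η).card ∧ F η ≤ 2 * R := by
    by_contra hcon
    push Not at hcon
    let fl : (Fin n → Bool) ≃ (Fin n → Bool) :=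
      Function.Involutive.toPerm (fun η i => !η i) (fun η => by simp)
    have hpair : ∀ η, 2 * R < F η + F (fl η) := by
      intro η
      have hc : (sel η).card + (sel (fl η)).card = A.card := by
        rw [← Finset.card_filter_add_card_filter_not (s := A) (fun i => η i = true)]
        congr 2
        simp [sel, fl, Function.Involutive.toPerm]
      rcases le_or_gt A.card (2 * (sel η).card) with h | h
      · linarith [hcon η h, hF0 (fl η)]
      · linarith [hcon (fl η) (by omega), hF0 η]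
    have hsum : ∑ η, 2 * R < ∑ η, (F η + F (fl η)) :=
      Finset.sum_lt_sum_of_nonempty univ_nonempty fun η _ => hpair η
    rw [Finset.sum_add_distrib, Equiv.sum_comp fl F, Finset.sum_const, Finset.card_univ,
      Fintype.card_fun, Fintype.card_bool, Fintype.card_fin, nsmul_eq_mul] at hsum
    push_cast at hsum
    rw [Ex_eq, inv_mul_le_iff₀ (by positivity)] at hF
    linarith
  refine ⟨sel η, hη1, Finset.sup'_le _ _ fun σ _ => ?_⟩
  obtain ⟨φ, hφ1, hφ2⟩ := exists_dual_vector'' ℝ (∑ i ∈ sel η, sgn (σ i) • g i)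
  simp only [RCLike.ofReal_real_eq_id, id_eq] at hφ2
  rw [← hφ2, map_sum]
  have e1 : ∑ i ∈ sel η, φ (sgn (σ i) • g i) ≤ ∑ i ∈ A, (1 + sgn (η i)) / 2 * |φ (g i)| := by
    have hval : ∑ i ∈ A, (1 + sgn (η i)) / 2 * |φ (g i)| = ∑ i ∈ sel η, |φ (g i)| := by
      rw [Finset.sum_filter]
      refine Finset.sum_congr rfl fun i _ => ?_
      cases η i <;> simp [sgn]
    rw [hval]
    refine Finset.sum_le_sum fun i _ => (le_abs_self _).trans ?_
    rw [map_smul, smul_eq_mul, abs_mul, abs_sgn, one_mul]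
  have e2 : ∑ i ∈ A, (1 + sgn (η i)) / 2 * |φ (g i)|
      = (∑ i ∈ A, |φ (g i)|) / 2 + (∑ i ∈ A, sgn (η i) * |φ (g i)|) / 2 := by
    rw [Finset.sum_div, Finset.sum_div, ← Finset.sum_add_distrib]
    exact Finset.sum_congr rfl fun i _ => by ring
  have e3 : ∑ i ∈ A, sgn (η i) * |φ (g i)| ≤ F η := by
    refine le_trans (le_of_eq ?_) (le_ciSup (hbdd η) (⟨φ, hφ1⟩ : ι))
    simp only [T, ψ, mul_ite, mul_zero, Finset.sum_ite_mem, Finset.univ_inter]
  have e4 : ∑ i ∈ A, |φ (g i)| ≤ maxSum g A := by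
    let σ' : Fin n → Bool := fun i => decide (0 ≤ φ (g i))
    have h : ∑ i ∈ A, |φ (g i)| = φ (∑ i ∈ A, sgn (σ' i) • g i) := by
      rw [map_sum]
      refine Finset.sum_congr rfl fun i _ => ?_
      rw [map_smul, smul_eq_mul]
      by_cases hp : 0 ≤ φ (g i)
      · simp [σ', sgn, hp, abs_of_nonneg hp]
      · simp [σ', sgn, hp, abs_of_neg (not_le.1 hp)]
    rw [h]
    exact (le_abs_self _).trans ((φ.le_opNorm _).trans
      ((mul_le_of_le_one_left (norm_nonneg _) hφ1).trans (le_maxSum g A σ')))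
  linarith

/-- Combinatorial core. -/
lemma sqrt_le (r C L : ℝ) (hr : 2 ≤ r) (hC : 0 ≤ C) (hcot : Cot V r C) (hn : 0 < n)
    (w : (Fin n → Bool) → V) (W : Submodule ℝ V) [FiniteDimensional ℝ W] (hW : ∀ δ, w δ ∈ W)
    (hw : ∀ δ, ‖w δ‖ ≤ L) (hg : ∀ i, 1 ≤ ‖Ex (fun δ => sgn (δ i) • w δ)‖) :
    Real.sqrt n ≤ 4 * C * L *
      (32 * C * L * ((Nat.clog 2 (Module.finrank ℝ W) + 1 : ℕ) : ℝ)) ^ (r - 1) := by
  classical
  set N : ℝ := ((Nat.clog 2 (Module.finrank ℝ W) + 1 : ℕ) : ℝ)
  set g : Fin n → V := fun i => Ex (fun δ => sgn (δ i) • w δ)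
  set R := Ex (fun η => ‖∑ i, sgn (η i) • g i‖) with hRdef
  have hR : R ≤ 8 * N * L := rad_bound w W hW L hw
  have hL : 1 ≤ L := by
    refine (hg ⟨0, hn⟩).trans ((norm_Ex_le _).trans ((Ex_mono fun δ => ?_).trans (Ex_const L).le))
    rw [norm_smul, Real.norm_eq_abs, abs_sgn, one_mul]; exact hw δ
  have hC1 : 1 ≤ C := by
    have hc := hcot 1 (fun _ => g ⟨0, hn⟩)
    have hpos : (0 : ℝ) < ‖g ⟨0, hn⟩‖ := lt_of_lt_of_le one_pos (hg _)
    simp only [Fin.sum_univ_one, norm_smul, Real.norm_eq_abs, abs_sgn, one_mul, Ex_const] at hc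
    rw [Real.sqrt_sq hpos.le, one_div, Real.rpow_rpow_inv hpos.le (by linarith)] at hc
    exact le_of_mul_le_mul_right (by linarith) hpos
  -- worst signed sum over everything
  have hS : maxSum g univ ≤ L * Real.sqrt n := by
    refine Finset.sup'_le _ _ fun σ _ => ?_
    have hsum : ∑ i, sgn (σ i) • g i = Ex (fun δ => (∑ i, sgn (σ i) * sgn (δ i)) • w δ) := by
      simp only [g, Ex, Finset.smul_sum, Finset.sum_smul, smul_smul]
      rw [Finset.sum_comm]
      exact Finset.sum_congr rfl fun δ _ => Finset.sum_congr rfl fun i _ => by congr 1; ring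
    rw [hsum]
    refine (norm_Ex_le _).trans ?_
    calc Ex (fun δ => ‖(∑ i, sgn (σ i) * sgn (δ i)) • w δ‖)
        ≤ Ex (fun δ => L * |∑ i, sgn (σ i) * sgn (δ i)|) := by
          refine Ex_mono fun δ => ?_
          rw [norm_smul, Real.norm_eq_abs, mul_comm]
          exact mul_le_mul_of_nonneg_right (hw δ) (abs_nonneg _)
      _ = L * Ex (fun δ => |∑ i, sgn (σ i) * sgn (δ i)|) := by
          simp only [Ex_eq, ← Finset.mul_sum]; ring
      _ ≤ L * Real.sqrt n := by
          refine mul_le_mul_of_nonneg_left ?_ (by linarith)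
          refine Ex_abs_le_sqrt _ _ (Real.sqrt_nonneg _) ?_
          rw [Real.sq_sqrt (by positivity)]
          have hchi : ∀ (δ : Fin n → Bool) i, sgn (δ i) = chi {i} δ := fun δ i => by simp [chi]
          have : Ex (fun δ => (∑ i, sgn (σ i) * sgn (δ i)) ^ 2)
              = ∑ i, ∑ j, sgn (σ i) * sgn (σ j) * Ex (fun δ => chi {i} δ * chi {j} δ) := by
            have hp : ∀ δ : Fin n → Bool, (∑ i, sgn (σ i) * sgn (δ i)) ^ 2
                = ∑ i, ∑ j, sgn (σ i) * sgn (σ j) * (chi {i} δ * chi {j} δ) := by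
              intro δ
              rw [sq, Finset.sum_mul_sum]
              exact Finset.sum_congr rfl fun i _ => Finset.sum_congr rfl fun j _ => by
                rw [← hchi, ← hchi]; ring
            simp only [hp, Ex_eq, Finset.mul_sum]
            rw [Finset.sum_comm]
            refine Finset.sum_congr rfl fun i _ => ?_
            rw [Finset.sum_comm]
            exact Finset.sum_congr rfl fun j _ => Finset.sum_congr rfl fun δ _ => by ring
          rw [this]
          simp [chi_orth, sgn_mul_self]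
  have hR0 : 0 ≤ R := by rw [hRdef, Ex_eq]; positivity
  -- iterate
  have iter : ∀ j : ℕ, ∃ A : Finset (Fin n), (n : ℝ) / 2 ^ j ≤ A.card ∧
      maxSum g A ≤ L * Real.sqrt n / 2 ^ j + 2 * R := by
    intro j
    induction j with
    | zero => exact ⟨univ, by simp, by simp; linarith⟩
    | succ j ih =>
      obtain ⟨A, hA1, hA2⟩ := ih
      obtain ⟨A', hB1, hB2⟩ := halve g A
      refine ⟨A', ?_, ?_⟩
      · have h : (A.card : ℝ) ≤ 2 * A'.card := by exact_mod_cast hB1
        rw [pow_succ, ← div_div, div_le_iff₀ two_pos]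
        linarith
      · rw [pow_succ, ← div_div]
        change _ ≤ _ + R at hB2
        linarith
  have main : ∀ j : ℕ, ((n : ℝ) / 2 ^ j) ^ (1 / r)
      ≤ C * L / Real.sqrt n * ((n : ℝ) / 2 ^ j) + 2 * C * R := by
    intro j
    obtain ⟨A, hA1, hA2⟩ := iter j
    let e := A.equivFin
    have hc := hcot A.card (fun k => g (e.symm k))
    have h1 : ((n : ℝ) / 2 ^ j) ^ (1 / r)
        ≤ (∑ k, ‖g (e.symm k : Fin n)‖ ^ r) ^ (1 / r) := by
      refine Real.rpow_le_rpow (by positivity) ?_ (by positivity)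
      refine hA1.trans ?_
      calc (A.card : ℝ) = ∑ _k : Fin A.card, (1 : ℝ) := by simp
        _ ≤ _ := Finset.sum_le_sum fun k _ => Real.one_le_rpow (hg _) (by linarith)
    have h2 : Real.sqrt (Ex fun η => ‖∑ k, sgn (η k) • g (e.symm k : Fin n)‖ ^ 2) ≤ maxSum g A := by
      have h0 : 0 ≤ maxSum g A := (norm_nonneg _).trans (le_maxSum g A fun _ => true)
      rw [Real.sqrt_le_left h0]
      refine (Ex_mono fun η => ?_).trans (Ex_const _).le
      refine pow_le_pow_left₀ (norm_nonneg _) ?_ 2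
      let σ : Fin n → Bool := fun i => if h : i ∈ A then η (e ⟨i, h⟩) else true
      refine le_trans (le_of_eq (congrArg _ ?_)) (le_maxSum g A σ)
      rw [← Finset.sum_coe_sort A, ← Equiv.sum_comp e.symm (fun i : A => sgn (σ i) • g i)]
      refine Finset.sum_congr rfl fun k _ => ?_
      simp [σ, (e.symm k).2]
    have h3 : C * (L * Real.sqrt n / 2 ^ j + 2 * R)
        = C * L / Real.sqrt n * ((n : ℝ) / 2 ^ j) + 2 * C * R := by
      have : Real.sqrt n * Real.sqrt n = n := Real.mul_self_sqrt (by positivity)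
      have : 0 < Real.sqrt n := Real.sqrt_pos.2 (by exact_mod_cast hn)
      field_simp
      nlinarith
    rw [← h3]
    exact h1.trans (hc.trans (mul_le_mul_of_nonneg_left (h2.trans hA2) hC))
  -- choose the scale
  set Y := Real.sqrt n / (2 * C * L) with hY
  have hnpos : (0 : ℝ) < n := by exact_mod_cast hn
  have hYpos : 0 < Y := by positivity
  have hex : ∃ j : ℕ, ((n : ℝ) / 2 ^ j) ^ (1 - 1 / r) ≤ Y := by
    have hq : (0 : ℝ) < 1 - 1 / r := by
      rw [sub_pos, div_lt_one (by linarith)]; linarith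
    obtain ⟨j, hj⟩ := pow_unbounded_of_one_lt ((n : ℝ) / Y ^ (1 / (1 - 1 / r))) (one_lt_two (α := ℝ))
    refine ⟨j, ?_⟩
    have hYp : 0 < Y ^ (1 / (1 - 1 / r)) := Real.rpow_pos_of_pos hYpos _
    have h' : (n : ℝ) / 2 ^ j ≤ Y ^ (1 / (1 - 1 / r)) := by
      rw [div_le_iff₀ (by positivity)]
      rw [div_lt_iff₀ hYp] at hj
      linarith
    refine (Real.rpow_le_rpow (by positivity) h' hq.le).trans (le_of_eq ?_)
    rw [← Real.rpow_mul hYpos.le, one_div_mul_cancel hq.ne', Real.rpow_one]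
  set u := (n : ℝ) / 2 ^ Nat.find hex with hu
  have hupos : 0 < u := by positivity
  set Z := 32 * C * L * N
  have hZ : u ^ (1 / r) ≤ Z := by
    have h1 := Nat.find_spec hex
    rw [← hu] at h1
    have h2 := main (Nat.find hex)
    rw [← hu] at h2
    have h3 : C * L / Real.sqrt n * u ≤ u ^ (1 / r) / 2 := by
      have e : u = u ^ (1 - 1 / r) * u ^ (1 / r) := by
        rw [← Real.rpow_add hupos]; simp
      calc C * L / Real.sqrt n * u = C * L / Real.sqrt n * (u ^ (1 - 1 / r) * u ^ (1 / r)) := by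
            rw [← e]
        _ ≤ C * L / Real.sqrt n * (Y * u ^ (1 / r)) := by gcongr
        _ = u ^ (1 / r) / 2 := by rw [hY]; field_simp
    have : 2 * C * R ≤ 2 * C * (8 * N * L) := by gcongr
    have hz : Z = 2 * (2 * C * (8 * N * L)) := by ring
    linarith
  have hpw : u ^ (1 - 1 / r) ≤ Z ^ (r - 1) := by
    refine le_trans (le_of_eq ?_) (Real.rpow_le_rpow (Real.rpow_nonneg hupos.le _) hZ (by linarith))
    rw [← Real.rpow_mul hupos.le]
    congr 1
    field_simp
  have hCL : 1 ≤ C * L := one_le_mul_of_one_le_of_one_le hC1 hL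
  rcases Nat.eq_zero_or_pos (Nat.find hex) with h0 | h0
  · have hun : u = n := by rw [hu, h0]; simp
    have h1 : Real.sqrt n ≤ u ^ (1 - 1 / r) := by
      rw [hun, Real.sqrt_eq_rpow]
      refine Real.rpow_le_rpow_of_exponent_le (by exact_mod_cast hn) ?_
      have : 1 / r ≤ 1 / 2 := one_div_le_one_div_of_le two_pos hr
      linarith
    have hZ0 : 0 ≤ Z ^ (r - 1) := le_trans (Real.rpow_nonneg hupos.le _) hpw
    calc Real.sqrt n ≤ Z ^ (r - 1) := h1.trans hpw
      _ ≤ 4 * C * L * Z ^ (r - 1) := le_mul_of_one_le_left hZ0 (by linarith)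
  · have h1 := Nat.find_min hex (show Nat.find hex - 1 < Nat.find hex by omega)
    push Not at h1
    have hdbl : (n : ℝ) / 2 ^ (Nat.find hex - 1) = 2 * u := by
      have hp : (2 : ℝ) ^ Nat.find hex = 2 ^ (Nat.find hex - 1) * 2 := by
        rw [← pow_succ]; congr 1; omega
      rw [hu, hp]; field_simp
    rw [hdbl, Real.mul_rpow two_pos.le hupos.le] at h1
    have h2 : (2 : ℝ) ^ (1 - 1 / r) ≤ 2 := by
      nth_rewrite 2 [← Real.rpow_one 2]
      refine Real.rpow_le_rpow_of_exponent_le one_le_two ?_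
      have : 0 ≤ 1 / r := by positivity
      linarith
    have h3 : Y ≤ 2 * Z ^ (r - 1) :=
      h1.le.trans (mul_le_mul h2 hpw (Real.rpow_nonneg hupos.le _) two_pos.le)
    rw [hY, div_le_iff₀ (by positivity)] at h3
    linarith

variable {X : Type*} [NormedAddCommGroup X] [NormedSpace ℝ X]

/-- A finite-rank operator which keeps `ℓ₁ⁿ` has large rank. -/
theorem rank_bound (r C L lam : ℝ) (hr : 2 ≤ r) (hC : 0 ≤ C) (hcot : Cot (StrongDual ℝ X) r C)
    (hL : 0 ≤ L) (hn : 0 < n) (x : Fin n → X) (hx : ∀ i, ‖x i‖ ≤ 1) (T : X →L[ℝ] X)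
    (hT : ‖T‖ ≤ lam) [FiniteDimensional ℝ (LinearMap.range (T : X →ₗ[ℝ] X))]
    (hlow : ∀ a : Fin n → ℝ, ∑ i, |a i| ≤ L * ‖∑ i, a i • T (x i)‖) :
    Real.sqrt n ≤ 4 * C * (L * lam) * (32 * C * (L * lam) *
      ((Nat.clog 2 (Module.finrank ℝ (LinearMap.range (T : X →ₗ[ℝ] X))) + 1 : ℕ) : ℝ)) ^ (r - 1) := by
  classical
  have hlam : 0 ≤ lam := (norm_nonneg _).trans hT
  set p := LinearMap.range (T : X →ₗ[ℝ] X)
  -- Hahn-Banach extensions
  let Φ : (Fin n → ℝ) →ₗ[ℝ] X := Fintype.linearCombination ℝ (fun i => T (x i))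
  have hΦ : ∀ a, Φ a = ∑ i, a i • T (x i) := fun a => Fintype.linearCombination_apply ..
  have hinj : Function.Injective Φ := by
    refine (injective_iff_map_eq_zero Φ).2 fun a ha => ?_
    have := hlow a
    rw [← hΦ, ha, norm_zero, mul_zero] at this
    funext i
    exact abs_eq_zero.1 (le_antisymm ((Finset.single_le_sum (f := fun i => |a i|)
      (fun i _ => abs_nonneg _) (Finset.mem_univ i)).trans this) (abs_nonneg _))
  have hext : ∀ δ : Fin n → Bool, ∃ φ : StrongDual ℝ X, ‖φ‖ ≤ L ∧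
      ∀ i, φ (T (x i)) = sgn (δ i) := by
    intro δ
    let f₀ : LinearMap.range Φ →ₗ[ℝ] ℝ :=
      (Fintype.linearCombination ℝ (fun i => sgn (δ i))).comp
        (LinearEquiv.ofInjective Φ hinj).symm.toLinearMap
    have hb : ∀ y, ‖f₀ y‖ ≤ L * ‖y‖ := by
      intro y
      set a := (LinearEquiv.ofInjective Φ hinj).symm y with ha
      have hy : (y : X) = Φ a := by
        rw [ha, ← LinearEquiv.ofInjective_apply (f := Φ) (h := hinj),
          LinearEquiv.apply_symm_apply]
      rw [Submodule.coe_norm, hy, hΦ, Real.norm_eq_abs]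
      refine le_trans ?_ (hlow a)
      simp only [f₀, LinearMap.comp_apply, LinearEquiv.coe_coe, ← ha,
        Fintype.linearCombination_apply, smul_eq_mul]
      refine (Finset.abs_sum_le_sum_abs _ _).trans (Finset.sum_le_sum fun i _ => ?_)
      rw [abs_mul, abs_sgn, mul_one]
    obtain ⟨φ, hφ1, hφ2⟩ := exists_extension_norm_eq _ (f₀.mkContinuous L hb)
    refine ⟨φ, hφ2.trans_le (f₀.mkContinuous_norm_le hL hb), fun i => ?_⟩
    let a : Fin n → ℝ := Pi.single i 1
    have hTa : T (x i) = Φ a := by simp [hΦ, a, Pi.single_apply]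
    have := hφ1 ⟨T (x i), hTa ▸ LinearMap.mem_range_self Φ a⟩
    rw [this, LinearMap.mkContinuous_apply]
    have hsym : (LinearEquiv.ofInjective Φ hinj).symm ⟨T (x i), hTa ▸ LinearMap.mem_range_self Φ a⟩
        = a := by
      rw [LinearEquiv.symm_apply_eq]; exact Subtype.ext (by simp [hTa])
    simp [f₀, hsym, a, Fintype.linearCombination_apply, Pi.single_apply]
  choose φ hφ1 hφ2 using hext
  -- the finite-dimensional subspace of the dual
  let Tr : X →L[ℝ] p := T.codRestrict p (fun y => LinearMap.mem_range_self (T : X →ₗ[ℝ] X) y)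
  let K : Module.Dual ℝ p →ₗ[ℝ] StrongDual ℝ X :=
    { toFun := fun ψ => (LinearMap.toContinuousLinearMap ψ).comp Tr
      map_add' := fun a b => by ext y; simp
      map_smul' := fun c a => by ext y; simp }
  let w : (Fin n → Bool) → StrongDual ℝ X := fun δ => (φ δ).comp T
  have hW : ∀ δ, w δ ∈ LinearMap.range K := fun δ =>
    ⟨((φ δ) : X →ₗ[ℝ] ℝ).comp p.subtype, by ext y; simp [K, w, Tr]⟩
  have hw : ∀ δ, ‖w δ‖ ≤ L * lam := fun δ =>
    ((φ δ).opNorm_comp_le T).trans (mul_le_mul (hφ1 δ) hT (norm_nonneg _) hL)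
  have hg : ∀ i, 1 ≤ ‖Ex (fun δ => sgn (δ i) • w δ)‖ := by
    intro i
    have hval : Ex (fun δ => sgn (δ i) • w δ) (x i) = 1 := by
      simp only [Ex]
      simp [w, hφ2, sgn_mul_self]
    have := (Ex (fun δ => sgn (δ i) • w δ)).le_opNorm (x i)
    rw [hval, norm_one] at this
    exact this.trans (mul_le_of_le_one_right (norm_nonneg _) (hx i))
  have hd : Module.finrank ℝ (LinearMap.range K) ≤ Module.finrank ℝ p :=
    (LinearMap.finrank_range_le K).trans (Subspace.dual_finrank_eq).le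
  refine (sqrt_le r C (L * lam) hr hC hcot hn w (LinearMap.range K) hW hw hg).trans ?_
  have hLl : 0 ≤ L * lam := mul_nonneg hL hlam
  gcongr
  · linarith

end Vale.Agent.P111
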