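import Mathlib.Analysis.Normed.Module.HahnBanach
import Mathlib.Analysis.Normed.Group.Quotient
import Mathlib.Analysis.Normed.Operator.NormedSpace
import Mathlib.Analysis.SpecialFunctions.Pow.Asymptotics
import Mathlib.Algebra.Order.Chebyshev
import Mathlib.Algebra.BigOperators.Field
import Mathlib.Logic.Equiv.Fin.Basic
import Vale.Agent.P111.Kernel

/-! A Riesz-product argument: ell-one subspaces with type `p` quotients force the dual to lack cotype. -/

namespace Vale.Agent.P111

open scoped BigOperators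
open Finset

variable {X : Type*} [NormedAddCommGroup X] [NormedSpace ℝ X]

/-- Odd Hahn-Banach lifts of sign sums of functionals on a subspace. -/
lemma exists_lifts {ι : Type*} [Fintype ι] (E : Submodule ℝ X) (φ : ι → StrongDual ℝ E)
    (hφ : ∀ a : ι → Bool, ‖∑ i, sgn (a i) • φ i‖ ≤ 1) :
    ∃ u : (ι → Bool) → StrongDual ℝ X, (∀ a, ‖u a‖ ≤ 1) ∧
      (∀ a (z : E), u a z = ∑ i, sgn (a i) * φ i z) ∧
      ∀ a, u (fun i => !a i) = -u a := by
  have key : ∀ a : ι → Bool, ∃ g : StrongDual ℝ X, ‖g‖ ≤ 1 ∧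
      ∀ z : E, g z = ∑ i, sgn (a i) * φ i z := by
    intro a
    obtain ⟨g, hg, hgn⟩ := exists_extension_norm_eq E (∑ i, sgn (a i) • φ i)
    exact ⟨g, hgn.le.trans (hφ a), fun z => by rw [hg z]; simp⟩
  choose g hg1 hg2 using key
  refine ⟨fun a => (1 / 2 : ℝ) • (g a - g fun i => !a i), fun a => ?_, fun a z => ?_, fun a => ?_⟩
  · rw [norm_smul]
    have := (norm_sub_le (g a) (g fun i => !a i)).trans (add_le_add (hg1 _) (hg1 _))
    norm_num
    linarith
  · simp [hg2, sgn_not]; ring
  · simp only [Bool.not_not]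
    rw [← neg_sub, smul_neg]

lemma apply_le_of_kills (Z : Submodule ℝ X) (g : StrongDual ℝ X) (hg : ∀ z ∈ Z, g z = 0) (v : X) :
    |g v| ≤ ‖g‖ * ‖(Submodule.Quotient.mk v : X ⧸ Z)‖ := by
  refine le_of_forall_pos_le_add fun η hη => ?_
  obtain ⟨w, hw, hwn⟩ := QuotientAddGroup.exists_norm_mk_lt (Submodule.Quotient.mk v : X ⧸ Z)
    (show 0 < η / (‖g‖ + 1) by positivity)
  have hmem : w - v ∈ Z := (Submodule.Quotient.eq Z).1 hw
  have h1 : g v = g w := by have := hg _ hmem; rw [map_sub] at this; linarith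
  rw [h1, ← Real.norm_eq_abs]
  refine (g.le_opNorm w).trans ((mul_le_mul_of_nonneg_left hwn.le (norm_nonneg _)).trans ?_)
  rw [mul_add]
  have : ‖g‖ * (η / (‖g‖ + 1)) ≤ η := by
    rw [← mul_div_assoc, div_le_iff₀ (by positivity)]; nlinarith [norm_nonneg g]
  exact add_le_add le_rfl this

lemma exists_almost_norming (g : StrongDual ℝ X) {η : ℝ} (hη : 0 < η) :
    ∃ v : X, ‖v‖ ≤ 1 ∧ ‖g‖ ≤ 2 * g v + η := by
  rcases le_total ‖g‖ η with h | h
  · exact ⟨0, by simp, by simpa using h⟩
  · obtain ⟨x, hx, hgx⟩ := g.exists_lt_apply_of_lt_opNorm (show ‖g‖ / 2 < ‖g‖ by linarith)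
    rw [Real.norm_eq_abs] at hgx
    rcases le_total 0 (g x) with h0 | h0
    · exact ⟨x, hx.le, by rw [abs_of_nonneg h0] at hgx; linarith⟩
    · exact ⟨-x, by simpa using hx.le, by rw [abs_of_nonpos h0] at hgx; rw [map_neg]; linarith⟩

lemma avg_norm_le_radAvg {Y : Type*} [SeminormedAddCommGroup Y] [NormedSpace ℝ Y] {s : ℕ}
    (y : Fin s → Y) : avg (fun ε : Fin s → Bool => ‖∑ i, sgn (ε i) • y i‖) ≤ radAvg y := by
  refine Real.le_sqrt_of_sq_le ?_
  have h := sq_sum_le_card_mul_sum_sq (s := (univ : Finset (Fin s → Bool)))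
    (f := fun ε => ‖∑ i, sgn (ε i) • y i‖)
  simp only [avg, smul_eq_mul, card_univ, Fintype.card_fun, Fintype.card_bool, Fintype.card_fin] at h ⊢
  push_cast at h ⊢
  rw [mul_pow, le_div_iff₀ (by positivity)]
  calc ((2 : ℝ) ^ s)⁻¹ ^ 2 * (∑ ε : Fin s → Bool, ‖∑ i, sgn (ε i) • y i‖) ^ 2 * 2 ^ s
      ≤ ((2 : ℝ) ^ s)⁻¹ ^ 2 * (2 ^ s * ∑ ε : Fin s → Bool, ‖∑ i, sgn (ε i) • y i‖ ^ 2) * 2 ^ s :=
        mul_le_mul_of_nonneg_right (mul_le_mul_of_nonneg_left h (by positivity)) (by positivity)
    _ = _ := by field_simp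

/-- Independent centred vectors in a space of type `p`. -/
lemma type_indep {Y : Type*} [SeminormedAddCommGroup Y] [NormedSpace ℝ Y] {p T : ℝ} (hp : 1 ≤ p)
    (hT : HasTypeWith Y p T) (hT0 : 0 ≤ T) {M : ℕ} {β : Type*} [Fintype β] [Nonempty β]
    (Xf : Fin M → β → Y) {R : ℝ} (hR : ∀ j c, ‖Xf j c‖ ≤ R) (hR0 : 0 ≤ R)
    (hmean : ∀ j, avg (Xf j) = 0) :
    avg (fun a : Fin M → β => ‖∑ j, Xf j (a j)‖) ≤ 2 * R * T * (M : ℝ) ^ (1 / p) := by
  classical
  have hmean' : ∀ a : Fin M → β, (∑ j, Xf j (a j))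
      = avg fun b : Fin M → β => ∑ j, (Xf j (a j) - Xf j (b j)) := by
    intro a
    rw [avg_sum]
    refine sum_congr rfl fun j _ => ?_
    rw [avg_sub, avg_const, avg_pi_apply, hmean, sub_zero]
  set Φ : (Fin M → β) × (Fin M → β) → (Fin M → Bool) → ℝ := fun q ε =>
    ‖∑ j, sgn (ε j) • (Xf j (q.1 j) - Xf j (q.2 j))‖
  have h1 : avg (fun a : Fin M → β => ‖∑ j, Xf j (a j)‖)
      ≤ avg fun q : (Fin M → β) × (Fin M → β) => ‖∑ j, (Xf j (q.1 j) - Xf j (q.2 j))‖ := by
    rw [avg_prod]
    refine avg_le_avg fun a => ?_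
    rw [hmean' a]
    exact norm_avg_le _
  refine h1.trans ?_
  have hsw : ∀ ε : Fin M → Bool,
      avg (fun q : (Fin M → β) × (Fin M → β) => ‖∑ j, (Xf j (q.1 j) - Xf j (q.2 j))‖)
      = avg fun q => Φ q ε := by
    intro ε
    let sw : (Fin M → β) × (Fin M → β) → (Fin M → β) × (Fin M → β) := fun q =>
      (fun j => if ε j then q.1 j else q.2 j, fun j => if ε j then q.2 j else q.1 j)
    have hinv : Function.Involutive sw := fun q => by
      refine Prod.ext (funext fun j => ?_) (funext fun j => ?_) <;> simp only [sw] <;>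
        split_ifs <;> rfl
    rw [← avg_equiv hinv.toPerm]
    refine avg_congr fun q => ?_
    simp only [Φ, Function.Involutive.coe_toPerm, sw]
    congr 1
    refine sum_congr rfl fun j _ => ?_
    cases h : ε j <;> simp [sgn]
  calc avg (fun q : (Fin M → β) × (Fin M → β) => ‖∑ j, (Xf j (q.1 j) - Xf j (q.2 j))‖)
      = avg fun ε : Fin M → Bool => avg fun q => Φ q ε := by
        rw [← avg_congr hsw, avg_const]
    _ = avg fun q => avg fun ε : Fin M → Bool => Φ q ε := avg_comm _
    _ ≤ _ := by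
        refine avg_le fun q => ?_
        refine (avg_norm_le_radAvg _).trans ((hT M _).trans ?_)
        have hb : ∀ j, ‖Xf j (q.1 j) - Xf j (q.2 j)‖ ^ p ≤ (2 * R) ^ p := fun j =>
          Real.rpow_le_rpow (norm_nonneg _)
            ((norm_sub_le _ _).trans (by linarith [hR j (q.1 j), hR j (q.2 j)])) (by linarith)
        have hs : (∑ j, ‖Xf j (q.1 j) - Xf j (q.2 j)‖ ^ p) ^ (1 / p)
            ≤ ((M : ℝ) * (2 * R) ^ p) ^ (1 / p) := by
          refine Real.rpow_le_rpow (sum_nonneg fun j _ => by positivity) ?_ (by positivity)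
          refine (sum_le_sum fun j _ => hb j).trans_eq ?_
          simp
        refine (mul_le_mul_of_nonneg_left hs hT0).trans_eq ?_
        rw [Real.mul_rpow (Nat.cast_nonneg M) (by positivity), ← Real.rpow_mul (by linarith),
          mul_one_div_cancel (by linarith), Real.rpow_one]
        ring

section Core

variable {M k : ℕ}

/-- The Riesz-averaged functional. -/
noncomputable def rieszG (U : (Fin M → Fin k → Bool) → StrongDual ℝ X) (a : Fin M → Fin k → Bool) :
    StrongDual ℝ X :=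
  avg fun b => (∏ l, fac (a l) (b l)) • U b

/-- The nonlinear part of the lifts on one block. -/
noncomputable def tailD (U : (Fin M → Fin k → Bool) → StrongDual ℝ X) (j : Fin M)
    (c : Fin k → Bool) : StrongDual ℝ X :=
  avg fun b => blk c (b j) • U b

lemma avg_apply {β : Type*} [Fintype β] (F : β → ℝ) (U : β → StrongDual ℝ X) (w : X) :
    (avg fun b => F b • U b) w = avg fun b => F b * U b w := by
  simp [avg]

lemma avg_blk_decomp {Y : Type*} [AddCommGroup Y] [Module ℝ Y] (j : Fin M) (c : Fin k → Bool)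
    (U : (Fin M → Fin k → Bool) → Y) :
    avg (fun b => blk c (b j) • U b)
      = (avg fun b => (if c = b j then (2 : ℝ) ^ k else 0) • U b) - avg U
        - ∑ i, sgn (c i) • avg (fun b => sgn (b j i) • U b) := by
  simp only [blk, sub_smul, one_smul, sum_smul, mul_smul, avg_sub, avg_sum, avg_smul]

variable (U : (Fin M → Fin k → Bool) → StrongDual ℝ X)

lemma rieszG_norm (hU : ∀ b, ‖U b‖ ≤ 1) (a : Fin M → Fin k → Bool) : ‖rieszG U a‖ ≤ 1 := by
  refine (norm_avg_le _).trans ?_
  calc avg (fun b : Fin M → Fin k → Bool => ‖(∏ l, fac (a l) (b l)) • U b‖)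
      ≤ avg fun b : Fin M → Fin k → Bool => ∏ l, fac (a l) (b l) := avg_le_avg fun b => by
        rw [norm_smul, Real.norm_eq_abs, abs_of_nonneg (prod_nonneg fun l _ => fac_nonneg _ _)]
        exact mul_le_of_le_one_right (prod_nonneg fun l _ => fac_nonneg _ _) (hU _)
    _ = 1 := by rw [avg_pi_prod (fun l => fac (a l))]; simp [avg_fac]

lemma rieszG_kills (z : X) (c : Fin M → Fin k → ℝ)
    (hz : ∀ b, U b z = ∑ j, ∑ i, sgn (b j i) * c j i)
    (a : Fin M → Fin k → Bool) : rieszG U a z = 0 := by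
  rw [rieszG, avg_apply]
  simp only [hz, mul_sum]
  rw [avg_sum]
  refine sum_eq_zero fun j _ => ?_
  rw [avg_sum]
  refine sum_eq_zero fun i _ => ?_
  rw [avg_pi_prod_mul (fun l => fac (a l)) j (fun d => sgn (d i) * c j i) fun l _ => avg_fac _]
  rw [avg_congr (g := fun d => c j i * (fac (a j) d * sgn (d i))) fun d => by ring, avg_mul_left,
    avg_fac_sgn, mul_zero]

lemma rieszG_pairing (j : Fin M) (v : (Fin k → Bool) → X) :
    avg (fun a : Fin M → Fin k → Bool => rieszG U a (v (a j) - avg v))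
      = avg (fun c => tailD U j c (v c)) / (1 + k) := by
  simp only [rieszG, tailD, avg_apply]
  rw [avg_comm, avg_comm (fun (c : Fin k → Bool) (b : Fin M → Fin k → Bool) => blk c (b j) * U b (v c)),
    ← avg_div]
  refine avg_congr fun b => ?_
  rw [avg_pi_prod_mul (fun l c => fac c (b l)) j (fun c => U b (v c - avg v))
    fun l _ => by simp only [fac_symm _ (b l)]; exact avg_fac _]
  simp only [map_sub, mul_sub, map_avg, avg_sub]
  rw [← avg_congr (f := fun c => avg (fun d => U b (v d)) * fac c (b j)) fun c => mul_comm _ _,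
    avg_mul_left, avg_congr (f := fun c => fac c (b j)) (g := fac (b j)) (fun c => fac_symm _ _),
    avg_fac, mul_one]
  simp only [fac, add_mul, one_mul, div_mul_eq_mul_div]
  rw [avg_add, avg_div, add_sub_cancel_left]

lemma avg_cross {j j' : Fin M} (hj : j ≠ j') (i i' : Fin k) (r : ℝ) :
    avg (fun b : Fin M → Fin k → Bool => sgn (b j i) * (sgn (b j' i') * r)) = 0 := by
  have h := avg_pi_prod (ι := Fin M) (β := Fin k → Bool)
    fun l d => if l = j then sgn (d i) else if l = j' then sgn (d i') * r else 1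
  rw [prod_eq_zero (mem_univ j) (by simp [avg_sgn])] at h
  refine (avg_congr fun b => ?_).trans h
  rw [← mul_prod_erase univ _ (mem_univ j), ← mul_prod_erase _ _ (mem_erase.2 ⟨hj.symm, mem_univ j'⟩),
    prod_eq_one fun l hl => by
      simp only [mem_erase, mem_univ] at hl
      simp [hl.1, hl.2.1]]
  simp [hj.symm]

/-- The linear part is bounded by one plus the tail. -/
lemma linear_part_le (hU : ∀ b, ‖U b‖ ≤ 1) (hodd : avg U = 0) (j : Fin M) (c : Fin k → Bool) :
    ‖∑ i, sgn (c i) • avg (fun b => sgn (b j i) • U b)‖ ≤ 1 + ‖tailD U j c‖ := by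
  have key : ∑ i, sgn (c i) • avg (fun b => sgn (b j i) • U b)
      = (avg fun b => (if c = b j then (2 : ℝ) ^ k else 0) • U b) - tailD U j c := by
    rw [show tailD U j c = _ from avg_blk_decomp j c U, hodd, sub_zero, sub_sub_cancel]
  rw [key]
  refine (norm_sub_le _ _).trans (add_le_add ?_ le_rfl)
  refine (norm_avg_le _).trans ?_
  calc avg (fun b : Fin M → Fin k → Bool => ‖(if c = b j then (2 : ℝ) ^ k else 0) • U b‖)
      ≤ avg fun b : Fin M → Fin k → Bool => (if c = b j then (2 : ℝ) ^ k else 0) := avg_le_avg fun b => by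
        rw [norm_smul]
        split_ifs
        · simpa using hU b
        · simp
    _ = 1 := by
        rw [avg_pi_apply j (fun d => if c = d then (2 : ℝ) ^ k else 0)]
        simp [avg]

end Core

/-- If `X ⧸ E` has type `p > 1` uniformly over subspaces `E` whose duals contain
`ℓ∞ⁿ` uniformly, then the dual of `X` has no finite cotype. -/
theorem no_finite_cotype {lam p T : ℝ} (hp : 1 < p)
    (h : ∀ n : ℕ, ∃ (E : Submodule ℝ X) (φ : Fin n → StrongDual ℝ E),
      HasTypeWith (X ⧸ E) p T ∧ (∀ i, 1 ≤ lam * ‖φ i‖) ∧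
      ∀ a : Fin n → Bool, ‖∑ i, sgn (a i) • φ i‖ ≤ 1) :
    ∀ q : ℝ, 0 < q → ¬ HasCotype (StrongDual ℝ X) q := by
  classical
  intro q hq ⟨C, hC⟩
  set C' := max C 1
  have hC' : (1 : ℝ) ≤ C' := le_max_right _ _
  set lam' := max lam 1
  have hlam : (1 : ℝ) ≤ lam' := le_max_right _ _
  set T' := max T 1
  have hT' : (1 : ℝ) ≤ T' := le_max_right _ _
  obtain ⟨k, hk⟩ := exists_nat_gt ((3 * C' * lam') ^ q)
  set δ : ℝ := 1 / (2 : ℝ) ^ k with hδ
  have hev : Filter.Tendsto (fun M : ℕ => 4 * (1 + k : ℝ) * (8 * T') * (M : ℝ) ^ (1 / p - 1))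
      Filter.atTop (nhds 0) := by
    have := (tendsto_rpow_neg_atTop (show 0 < 1 - 1 / p by
      rw [sub_pos, div_lt_one (by linarith)]; exact hp)).comp tendsto_natCast_atTop_atTop
    have h2 := this.const_mul (4 * (1 + k : ℝ) * (8 * T'))
    rw [mul_zero] at h2
    refine h2.congr fun M => ?_
    simp only [Function.comp_apply, neg_sub]
  obtain ⟨M, hM, hM1⟩ := ((hev.eventually (eventually_le_nhds (show (0 : ℝ) < δ by positivity))).and
    (Filter.eventually_ge_atTop 1)).exists
  obtain ⟨Z, φ0, hx0t, hφn, hφs⟩ := h (M * k)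
  set ψ : Fin M × Fin k → StrongDual ℝ Z := fun m => φ0 (finProdFinEquiv m) with hψ
  have hψs : ∀ a : Fin M × Fin k → Bool, ‖∑ m, sgn (a m) • ψ m‖ ≤ 1 := by
    intro a
    have := hφs fun l => a (finProdFinEquiv.symm l)
    rw [← finProdFinEquiv.sum_comp] at this
    simpa [hψ] using this
  obtain ⟨u, hu1, hu2, hu3⟩ := exists_lifts Z ψ hψs
  let e : (Fin M → Fin k → Bool) → (Fin M × Fin k → Bool) := fun a i => a i.1 i.2
  let U : (Fin M → Fin k → Bool) → StrongDual ℝ X := fun a => u (e a)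
  have hU1 : ∀ b, ‖U b‖ ≤ 1 := fun b => hu1 _
  have hUx : ∀ b (z : Z), U b z = ∑ j, ∑ i, sgn (b j i) * ψ (j, i) z := fun b z =>
    (hu2 _ _).trans (Fintype.sum_prod_type _)
  have hodd : avg U = 0 := by
    have hinv : Function.Involutive fun (b : Fin M → Fin k → Bool) j i => !b j i := fun b => by simp
    have h1 := avg_equiv hinv.toPerm U
    have h2 : avg (fun b => U ((hinv.toPerm _) b)) = -avg U := by
      rw [← avg_neg]
      exact avg_congr fun b => hu3 (e b)
    rw [h1] at h2
    have h3 : (2 : ℝ) • avg U = 0 := by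
      rw [two_smul]
      exact add_eq_zero_iff_eq_neg.2 h2
    exact (smul_eq_zero.1 h3).resolve_left two_ne_zero
  have hkills : ∀ a, ∀ z ∈ Z, rieszG U a z = 0 := fun a z hz =>
    rieszG_kills U z (fun j i => ψ (j, i) ⟨z, hz⟩) (fun b => hUx b ⟨z, hz⟩) a
  choose v hv1 hv2 using fun (j : Fin M) (c : Fin k → Bool) =>
    exists_almost_norming (tailD U j c) (show (0 : ℝ) < δ / 4 by positivity)
  have hup : ∑ j, avg (fun c => tailD U j c (v j c)) ≤ (1 + k) * (8 * T' * (M : ℝ) ^ (1 / p)) := by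
    rw [← div_le_iff₀' (by positivity), Finset.sum_div, sum_congr rfl (fun j _ => (rieszG_pairing U j (v j)).symm),
      ← avg_sum]
    set H : Fin M → (Fin k → Bool) → X ⧸ Z := fun j c => Z.mkQ (v j c - avg (v j))
    have hHm : ∀ j, avg (H j) = 0 := fun j => by
      simp only [H]
      rw [← map_avg, avg_sub, avg_const, sub_self, map_zero]
    have hty : HasTypeWith (X ⧸ Z) p T' := fun s y =>
      (hx0t s y).trans (mul_le_mul_of_nonneg_right (le_max_left _ _) (by positivity))
    refine (avg_le_avg fun a => ?_).trans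
      ((type_indep hp.le hty (by linarith) H (R := 4) (fun j c => ?_) (by norm_num) hHm).trans_eq
        (by ring))
    · rw [← map_sum]
      refine (le_abs_self _).trans ((apply_le_of_kills Z _ (hkills a) _).trans ?_)
      refine (mul_le_of_le_one_left (norm_nonneg _) (rieszG_norm U hU1 a)).trans_eq ?_
      rw [← Submodule.mkQ_apply, map_sum]
    · refine (Submodule.Quotient.norm_mk_le Z _).trans ((norm_sub_le _ _).trans ?_)
      have h1 := (norm_avg_le (v j)).trans (avg_le fun d => hv1 j d)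
      linarith [hv1 j c]
  obtain ⟨j, -, hj⟩ := exists_le_of_sum_le (s := (univ : Finset (Fin M)))
    (f := fun j => avg fun c => tailD U j c (v j c)) (g := fun _ => δ / 4)
    ⟨⟨0, hM1⟩, mem_univ _⟩ (by
      refine hup.trans ?_
      have hMpos : (0 : ℝ) < M := by exact_mod_cast hM1
      have e : (M : ℝ) ^ (1 / p) = (M : ℝ) ^ (1 / p - 1) * M := by
        rw [Real.rpow_sub hMpos, Real.rpow_one]; field_simp
      simp only [sum_const, card_univ, Fintype.card_fin, nsmul_eq_mul]
      rw [e]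
      nlinarith [mul_le_mul_of_nonneg_right hM hMpos.le])
  have hDsmall : ∀ c, ‖tailD U j c‖ ≤ 1 := by
    intro c
    have h1 : avg (fun d => ‖tailD U j d‖) ≤ δ := by
      refine (avg_le_avg fun d => hv2 j d).trans ?_
      rw [avg_add, avg_const, avg_mul_left]
      linarith [show (0 : ℝ) < δ by positivity]
    refine (le_card_mul_avg (fun d => norm_nonneg (tailD U j d)) c).trans ?_
    refine (mul_le_mul_of_nonneg_left h1 (Nat.cast_nonneg _)).trans_eq ?_
    simp [hδ]
  set φ : Fin k → StrongDual ℝ X := fun i => avg fun b => sgn (b j i) • U b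
  have hlin : ∀ c : Fin k → Bool, ‖∑ i, sgn (c i) • φ i‖ ≤ 2 := fun c =>
    (linear_part_le U hU1 hodd j c).trans (by linarith [hDsmall c])
  have hlow : ∀ i, 1 / lam' ≤ ‖φ i‖ := by
    intro i
    have h1 : ‖ψ (j, i)‖ ≤ ‖φ i‖ := by
      refine ContinuousLinearMap.opNorm_le_bound _ (norm_nonneg _) fun z => ?_
      have h2 : φ i (z : X) = ψ (j, i) z := by
        simp only [φ, avg_apply, hUx, mul_sum]
        rw [avg_sum, sum_eq_single j, avg_sum, sum_eq_single i]
        · refine (avg_congr fun b => ?_).trans (avg_const _)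
          rw [← mul_assoc, sgn_mul_self, one_mul]
        · intro i' _ hi'
          rw [avg_pi_apply j (fun d : Fin k → Bool => sgn (d i) * (sgn (d i') * ψ (j, i') z)),
            avg_congr (g := fun d => ψ (j, i') z * (sgn (d i) * sgn (d i'))) fun d => by ring,
            avg_mul_left, avg_sgn_sgn, if_neg (Ne.symm hi'), mul_zero]
        · simp
        · intro j' _ hj'
          rw [avg_sum]
          refine sum_eq_zero fun i' _ => ?_
          exact avg_cross (Ne.symm hj') i i' _
        · simp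
      rw [← h2]
      exact (φ i).le_opNorm _
    rw [div_le_iff₀ (by linarith), mul_comm]
    exact (hφn _).trans (mul_le_mul (le_max_left _ _) h1 (ContinuousLinearMap.opNorm_nonneg _) (by linarith))
  have hrad : radAvg φ ≤ 2 := by
    rw [radAvg, Real.sqrt_le_iff]
    refine ⟨by norm_num, (div_le_iff₀ (by positivity)).2 ?_⟩
    refine (sum_le_sum fun ε _ => pow_le_pow_left₀ (norm_nonneg _) (hlin ε) 2).trans_eq ?_
    simp [mul_comm]
  have hcot := hC k φ
  have h1 : ((k : ℝ) * (1 / lam') ^ q) ^ (1 / q) ≤ C' * 2 := by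
    refine le_trans ?_ (hcot.trans ?_)
    · refine Real.rpow_le_rpow (by positivity) ?_ (by positivity)
      calc (k : ℝ) * (1 / lam') ^ q = ∑ _i : Fin k, (1 / lam') ^ q := by simp
        _ ≤ _ := sum_le_sum fun i _ => Real.rpow_le_rpow (by positivity) (hlow i) hq.le
    · exact (mul_le_mul_of_nonneg_right (le_max_left _ _) (Real.sqrt_nonneg _)).trans
        (mul_le_mul_of_nonneg_left hrad (by linarith))
  rw [Real.mul_rpow (Nat.cast_nonneg k) (by positivity), ← Real.rpow_mul (by positivity),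
    mul_one_div_cancel hq.ne', Real.rpow_one] at h1
  have h2 : 3 * C' * lam' < (k : ℝ) ^ (1 / q) := by
    have := Real.rpow_lt_rpow (by positivity) hk (show 0 < 1 / q by positivity)
    rwa [← Real.rpow_mul (by positivity), mul_one_div_cancel hq.ne', Real.rpow_one] at this
  rw [mul_one_div, div_le_iff₀ (by linarith)] at h1
  nlinarith

end Vale.Agent.P111
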